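import Mathlib

set_option linter.unusedSectionVars false

/-!
# P054 / T2: the exponential map of a family of derivations (helper275)

`K` a field, `R` a commutative `K`-algebra, `E : τ → Derivation K R R`.
`expS E : R →ₐ[K] MvPowerSeries τ R`, `F ↦ ∑ₙ (E_t)ⁿ F / n!`, `E_t = ∑ⱼ tⱼ Eⱼ`.
-/

namespace Vale.Agent.P054.T2.H275

open MvPowerSeries

section DividedPowers

variable {K : Type*} [Field K] [CharZero K] {S : Type*} [CommRing S] [Algebra K S]

/-- divided powers of a derivation -/
noncomputable def dp (D : Derivation K S S) (n : ℕ) (x : S) : S :=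
  ((n.factorial : K)⁻¹) • (D^[n] x)

theorem dp_zero (D : Derivation K S S) (x : S) : dp D 0 x = x := by
  simp [dp]

theorem dp_succ (D : Derivation K S S) (n : ℕ) (x : S) :
    ((n : K) + 1) • dp D (n + 1) x = D (dp D n x) := by
  have h1 : ((n : K) + 1) ≠ 0 := by exact_mod_cast Nat.succ_ne_zero n
  have h2 : ((n.factorial : ℕ) : K) ≠ 0 := by exact_mod_cast Nat.factorial_ne_zero n
  unfold dp
  rw [Function.iterate_succ_apply', Derivation.map_smul, smul_smul, Nat.factorial_succ]
  congr 1
  push_cast
  field_simp

theorem dp_add (D : Derivation K S S) (n : ℕ) (x y : S) :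
    dp D n (x + y) = dp D n x + dp D n y := by
  unfold dp
  rw [← smul_add]
  congr 1
  induction n generalizing x y with
  | zero => rfl
  | succ n ih => rw [Function.iterate_succ_apply, map_add, ih, ← Function.iterate_succ_apply,
      ← Function.iterate_succ_apply]

theorem dp_mul (D : Derivation K S S) (n : ℕ) (x y : S) :
    dp D n (x * y) = ∑ ij ∈ Finset.HasAntidiagonal.antidiagonal n, dp D ij.1 x * dp D ij.2 y := by
  induction n with
  | zero => simp [dp_zero]
  | succ n ih =>
    have h1 : ((n : K) + 1) ≠ 0 := by exact_mod_cast Nat.succ_ne_zero n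
    have key : ((n : K) + 1) • dp D (n + 1) (x * y)
        = ((n : K) + 1) • ∑ ij ∈ Finset.HasAntidiagonal.antidiagonal (n + 1), dp D ij.1 x * dp D ij.2 y := by
      rw [dp_succ, ih, map_sum]
      have e1 : ∀ ij ∈ Finset.HasAntidiagonal.antidiagonal n, D (dp D ij.1 x * dp D ij.2 y)
          = ((ij.2 : K) + 1) • (dp D ij.1 x * dp D (ij.2 + 1) y)
            + ((ij.1 : K) + 1) • (dp D (ij.1 + 1) x * dp D ij.2 y) := by
        intro ij _
        rw [Derivation.leibniz, ← dp_succ, ← dp_succ]
        simp only [smul_eq_mul, Algebra.mul_smul_comm]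
        rw [mul_comm (dp D ij.2 y)]
      rw [Finset.sum_congr rfl e1, Finset.sum_add_distrib, Finset.smul_sum]
      have e2 : ∀ ij ∈ Finset.HasAntidiagonal.antidiagonal (n + 1),
          ((n : K) + 1) • (dp D ij.1 x * dp D ij.2 y)
          = (ij.2 : K) • (dp D ij.1 x * dp D ij.2 y)
            + (ij.1 : K) • (dp D ij.1 x * dp D ij.2 y) := by
        intro ij hij
        rw [← add_smul]
        congr 1
        rw [Finset.HasAntidiagonal.mem_antidiagonal] at hij
        have : ((ij.1 + ij.2 : ℕ) : K) = ((n + 1 : ℕ) : K) := by rw [hij]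
        push_cast at this
        rw [← this, add_comm]
      rw [Finset.sum_congr rfl e2, Finset.sum_add_distrib]
      congr 1
      · rw [Finset.Nat.sum_antidiagonal_succ' (f := fun ij : ℕ × ℕ =>
          (ij.2 : K) • (dp D ij.1 x * dp D ij.2 y))]
        simp
      · rw [Finset.Nat.sum_antidiagonal_succ (f := fun ij : ℕ × ℕ =>
          (ij.1 : K) • (dp D ij.1 x * dp D ij.2 y))]
        simp
    have := congrArg (fun z => ((n : K) + 1)⁻¹ • z) key
    simpa [smul_smul, inv_mul_cancel₀ h1] using this

theorem dp_algebraMap (D : Derivation K S S) (n : ℕ) (a : K) :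
    dp D n (algebraMap K S a) = if n = 0 then algebraMap K S a else 0 := by
  cases n with
  | zero => simp [dp_zero]
  | succ n =>
    unfold dp
    rw [Function.iterate_succ_apply, Derivation.map_algebraMap]
    have : ∀ m : ℕ, (D^[m]) (0 : S) = 0 := by
      intro m
      induction m with
      | zero => rfl
      | succ m ih => rw [Function.iterate_succ_apply, map_zero, ih]
    simp [this]

end DividedPowers

section CoeffD

variable {K : Type*} [Field K] {R : Type*} [CommRing R] [Algebra K R]
  {τ : Type*} [DecidableEq τ]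

/-- coefficientwise application of a derivation -/
noncomputable def coeffD (E : Derivation K R R) :
    Derivation K (MvPowerSeries τ R) (MvPowerSeries τ R) :=
  Derivation.mk'
    { toFun := fun f => fun α => E (coeff α f)
      map_add' := fun f g => by
        funext α
        change E (coeff α (f + g)) = E (coeff α f) + E (coeff α g)
        rw [map_add, map_add]
      map_smul' := fun a f => by
        funext α
        change E (coeff α (a • f)) = a • E (coeff α f)
        rw [show coeff α (a • f) = a • coeff α f from rfl, Derivation.map_smul] }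
    (fun f g => by
      ext α
      change E (coeff α (f * g)) = coeff α (f * (show MvPowerSeries τ R from fun β => E (coeff β g))
        + g * (show MvPowerSeries τ R from fun β => E (coeff β f)))
      rw [map_add, coeff_mul, coeff_mul, mul_comm g, coeff_mul, map_sum,
        ← Finset.sum_add_distrib]
      refine Finset.sum_congr rfl fun p _ => ?_
      rw [Derivation.leibniz, smul_eq_mul, smul_eq_mul, mul_comm (coeff p.2 g)]
      rfl)

theorem coeff_coeffD (E : Derivation K R R) (f : MvPowerSeries τ R) (α : τ →₀ ℕ) :
    coeff α (coeffD E f) = E (coeff α f) := rfl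

variable [Fintype τ]

/-- `E_t = ∑ⱼ tⱼ Eⱼ` on `R[[t]]` -/
noncomputable def Et (E : τ → Derivation K R R) :
    Derivation K (MvPowerSeries τ R) (MvPowerSeries τ R) :=
  ∑ j, (X j : MvPowerSeries τ R) • coeffD (E j)

theorem Et_apply (E : τ → Derivation K R R) (f : MvPowerSeries τ R) :
    Et E f = ∑ j, (X j : MvPowerSeries τ R) * coeffD (E j) f := by
  unfold Et
  rw [← Derivation.coeFnAddMonoidHom_apply, map_sum, Finset.sum_apply]
  rfl

theorem coeff_Et (E : τ → Derivation K R R) (f : MvPowerSeries τ R) (α : τ →₀ ℕ) :
    coeff α (Et E f) = ∑ j, if Finsupp.single j 1 ≤ α then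
      E j (coeff (α - Finsupp.single j 1) f) else 0 := by
  rw [Et_apply, map_sum]
  refine Finset.sum_congr rfl fun j _ => ?_
  rw [X_def, coeff_monomial_mul, one_mul, coeff_coeffD]

/-- all coefficients of `(E_t)ⁿ F` lie in `A n` if `E_j (A n) ⊆ A (n+1)` -/
theorem coeff_iterate_mem (E : τ → Derivation K R R) (A : ℕ → Submodule K R)
    (hs : ∀ n j x, x ∈ A n → E j x ∈ A (n + 1)) (F : R) (h0 : F ∈ A 0) (n : ℕ) (α : τ →₀ ℕ) :
    coeff α ((Et E)^[n] (C F)) ∈ A n := by
  induction n generalizing α with
  | zero =>
    rw [Function.iterate_zero, id, coeff_C]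
    split_ifs
    · exact h0
    · exact (A 0).zero_mem
  | succ n ih =>
    rw [Function.iterate_succ_apply', coeff_Et]
    refine Submodule.sum_mem _ fun j _ => ?_
    split_ifs
    · exact hs _ _ _ (ih _)
    · exact Submodule.zero_mem _

theorem coeff_iterate_eq_zero (E : τ → Derivation K R R) (F : R) (n : ℕ) (α : τ →₀ ℕ)
    (h : Finsupp.degree α ≠ n) : coeff α ((Et E)^[n] (C F)) = 0 := by
  induction n generalizing α with
  | zero =>
    rw [Function.iterate_zero, id, coeff_C, if_neg]
    rintro rfl
    exact h (by simp)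
  | succ n ih =>
    rw [Function.iterate_succ_apply', coeff_Et]
    refine Finset.sum_eq_zero fun j _ => ?_
    split_ifs with hj
    · rw [ih _ ?_, map_zero]
      intro h'
      apply h
      have : α = (α - Finsupp.single j 1) + Finsupp.single j 1 := (tsub_add_cancel_of_le hj).symm
      rw [this, map_add, h', Finsupp.degree_single]
    · rfl

end CoeffD

section Exp

variable {K : Type*} [Field K] [CharZero K] {R : Type*} [CommRing R] [Algebra K R]
  {τ : Type*} [DecidableEq τ] [Fintype τ]

theorem coeff_dp_eq_zero (E : τ → Derivation K R R) (F : R) (n : ℕ) (α : τ →₀ ℕ)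
    (h : Finsupp.degree α ≠ n) : coeff α (dp (Et E) n (C F)) = 0 := by
  unfold dp
  rw [show ∀ (a : K) (f : MvPowerSeries τ R), coeff α (a • f) = a • coeff α f from fun _ _ => rfl,
    coeff_iterate_eq_zero E F n α h, smul_zero]

/-- the formal flow, `F ↦ ∑ₙ (E_t)ⁿ F / n!` -/
noncomputable def expFun (E : τ → Derivation K R R) (F : R) : MvPowerSeries τ R :=
  fun α => coeff α (dp (Et E) (Finsupp.degree α) (C F))

theorem coeff_expFun (E : τ → Derivation K R R) (F : R) (α : τ →₀ ℕ) :
    coeff α (expFun E F) = coeff α (dp (Et E) (Finsupp.degree α) (C F)) := rfl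

/-- the formal flow as an algebra homomorphism -/
noncomputable def expS (E : τ → Derivation K R R) : R →ₐ[K] MvPowerSeries τ R where
  toFun := expFun E
  map_one' := by
    ext α
    rw [coeff_expFun, map_one]
    have := dp_algebraMap (Et E) (Finsupp.degree α) (1 : K)
    rw [map_one] at this
    rw [this]
    split_ifs with h
    · rfl
    · rw [map_zero, coeff_one, if_neg]
      rintro rfl
      exact h (by simp)
  map_mul' F G := by
    ext α
    rw [coeff_expFun, map_mul, dp_mul, map_sum, coeff_mul]
    have e1 : ∀ ij ∈ Finset.HasAntidiagonal.antidiagonal (Finsupp.degree α),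
        coeff α (dp (Et E) ij.1 (C F) * dp (Et E) ij.2 (C G))
        = ∑ p ∈ Finset.HasAntidiagonal.antidiagonal α,
          coeff p.1 (dp (Et E) ij.1 (C F)) * coeff p.2 (dp (Et E) ij.2 (C G)) := by
      intro ij _
      rw [coeff_mul]
    rw [Finset.sum_congr rfl e1, Finset.sum_comm]
    refine Finset.sum_congr rfl fun p hp => ?_
    rw [Finset.HasAntidiagonal.mem_antidiagonal] at hp
    have hdeg : (Finsupp.degree p.1, Finsupp.degree p.2) ∈
        Finset.HasAntidiagonal.antidiagonal (Finsupp.degree α) := by
      rw [Finset.HasAntidiagonal.mem_antidiagonal, ← hp, map_add]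
    rw [Finset.sum_eq_single_of_mem _ hdeg]
    · rfl
    · intro ij _ hne
      by_cases h1 : Finsupp.degree p.1 = ij.1
      · by_cases h2 : Finsupp.degree p.2 = ij.2
        · exact absurd (Prod.ext h1.symm h2.symm) hne
        · rw [coeff_dp_eq_zero E G _ _ h2, mul_zero]
      · rw [coeff_dp_eq_zero E F _ _ h1, zero_mul]
  map_zero' := by
    ext α
    rw [coeff_expFun, map_zero]
    have := dp_algebraMap (Et E) (Finsupp.degree α) (0 : K)
    rw [map_zero, ite_self] at this
    rw [this]
  map_add' F G := by
    ext α
    rw [map_add, coeff_expFun, coeff_expFun, coeff_expFun, map_add, dp_add, map_add]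
  commutes' a := by
    ext α
    rw [coeff_expFun]
    have := dp_algebraMap (Et E) (Finsupp.degree α) a
    rw [MvPowerSeries.algebraMap_apply] at this ⊢
    rw [this]
    split_ifs with h
    · rfl
    · rw [map_zero, coeff_C, if_neg]
      rintro rfl
      exact h (by simp)

theorem coeff_expS (E : τ → Derivation K R R) (F : R) (α : τ →₀ ℕ) :
    coeff α (expS E F) =
      (((Finsupp.degree α).factorial : K)⁻¹) • coeff α ((Et E)^[Finsupp.degree α] (C F)) := rfl

/-- coefficients of the flow, membership form -/
theorem coeff_expS_mem (E : τ → Derivation K R R) (A : ℕ → Submodule K R)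
    (hs : ∀ n j x, x ∈ A n → E j x ∈ A (n + 1)) (F : R) (h0 : F ∈ A 0) (α : τ →₀ ℕ) :
    coeff α (expS E F) ∈ A (Finsupp.degree α) := by
  rw [coeff_expS]
  exact Submodule.smul_mem _ _ (coeff_iterate_mem E A hs F h0 _ _)

theorem constantCoeff_expS (E : τ → Derivation K R R) (F : R) :
    constantCoeff (expS E F) = F := by
  rw [← coeff_zero_eq_constantCoeff_apply, coeff_expS]
  simp

theorem coeff_single_expS (E : τ → Derivation K R R) (F : R) (j : τ) :
    coeff (Finsupp.single j 1) (expS E F) = E j F := by
  rw [coeff_expS]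
  simp only [Finsupp.degree_single, Nat.factorial_one, Nat.cast_one, inv_one, one_smul,
    Function.iterate_one]
  rw [coeff_Et, Finset.sum_eq_single j]
  · rw [if_pos le_rfl, tsub_self, coeff_zero_C]
  · intro i _ hi
    rw [if_neg]
    intro h
    have := h i
    rw [Finsupp.single_eq_same, Finsupp.single_eq_of_ne (by exact hi)] at this
    omega
  · intro h
    exact absurd (Finset.mem_univ _) h

/-- an element killed by all the derivations is mapped to a constant -/
theorem expS_of_const (E : τ → Derivation K R R) (F : R) (h : ∀ j, E j F = 0) :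
    expS E F = C F := by
  ext α
  rw [coeff_expS, coeff_C]
  by_cases hα : α = 0
  · subst hα
    simp
  · rw [if_neg hα]
    obtain ⟨n, hn⟩ : ∃ n, Finsupp.degree α = n + 1 := by
      refine Nat.exists_eq_succ_of_ne_zero ?_
      rwa [Ne, Finsupp.degree_eq_zero_iff]
    rw [hn, Function.iterate_succ_apply]
    have : Et E (C F) = 0 := by
      ext β
      rw [coeff_Et, map_zero]
      refine Finset.sum_eq_zero fun j _ => ?_
      split_ifs
      · rw [coeff_C]
        split_ifs
        · exact h j
        · exact map_zero _
      · rfl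
    rw [this]
    have : ∀ m : ℕ, ((Et E)^[m]) (0 : MvPowerSeries τ R) = 0 := by
      intro m
      induction m with
      | zero => rfl
      | succ m ih => rw [Function.iterate_succ_apply, map_zero, ih]
    rw [this, map_zero, smul_zero]

end Exp

end Vale.Agent.P054.T2.H275
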