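import Vale.Agent.P054.T2.H275.Exp

set_option linter.unusedSectionVars false

/-!
# P054 / T2: germs by the exponential map (helper275)

`g : κ ⊕ τ → K[X]` with `det (Jacobian of g) (p) ≠ 0`; the first `κ` of them are the equations.
`germ e g p : K[X] →ₐ[K] K[[t]]`.
-/

namespace Vale.Agent.P054.T2.H275

open MvPowerSeries

section PhiDer

variable {K : Type*} [Field K] {ι : Type*} [Fintype ι] [DecidableEq ι]
  {S : Type*} [CommRing S] [Algebra K S]

/-- `Δ` is a derivation along `φ` -/
def IsDer (φ : MvPolynomial ι K →ₐ[K] S) (Δ : MvPolynomial ι K →ₗ[K] S) : Prop :=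
  ∀ F G, Δ (F * G) = φ F * Δ G + φ G * Δ F

theorem IsDer.map_one {φ : MvPolynomial ι K →ₐ[K] S} {Δ : MvPolynomial ι K →ₗ[K] S}
    (h : IsDer φ Δ) : Δ 1 = 0 := by
  have h0 := h 1 1
  have h1 : φ 1 = 1 := _root_.map_one φ
  rw [one_mul, h1, one_mul] at h0
  simpa using h0

theorem IsDer.map_C {φ : MvPolynomial ι K →ₐ[K] S} {Δ : MvPolynomial ι K →ₗ[K] S}
    (h : IsDer φ Δ) (a : K) : Δ (MvPolynomial.C a) = 0 := by
  rw [show (MvPolynomial.C a : MvPolynomial ι K) = a • 1 by
    rw [MvPolynomial.smul_eq_C_mul, mul_one], map_smul, h.map_one, smul_zero]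

/-- chain rule -/
theorem IsDer.eq_sum {φ : MvPolynomial ι K →ₐ[K] S} {Δ : MvPolynomial ι K →ₗ[K] S}
    (h : IsDer φ Δ) (F : MvPolynomial ι K) :
    Δ F = ∑ i, φ (MvPolynomial.pderiv i F) * Δ (MvPolynomial.X i) := by
  induction F using MvPolynomial.induction_on with
  | C a =>
    rw [h.map_C]
    simp
  | add F G hF hG =>
    rw [map_add, hF, hG, ← Finset.sum_add_distrib]
    refine Finset.sum_congr rfl fun i _ => ?_
    rw [map_add, map_add, add_mul]
  | mul_X F j hF =>
    rw [h, hF]
    have : ∀ i, φ (MvPolynomial.pderiv i (F * MvPolynomial.X j)) * Δ (MvPolynomial.X i)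
        = φ F * ((if i = j then 1 else 0) * Δ (MvPolynomial.X i))
          + φ (MvPolynomial.X j) * (φ (MvPolynomial.pderiv i F) * Δ (MvPolynomial.X i)) := by
      intro i
      rw [Derivation.leibniz, MvPolynomial.pderiv_X, smul_eq_mul, smul_eq_mul, map_add, map_mul,
        map_mul]
      by_cases hij : i = j
      · subst hij
        simp
        ring
      · rw [Pi.single_eq_of_ne (Ne.symm hij), if_neg hij, map_zero]
        ring
    rw [Finset.sum_congr rfl fun i _ => this i, Finset.sum_add_distrib, ← Finset.mul_sum,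
      ← Finset.mul_sum]
    congr 2
    simp

end PhiDer

section Jac

variable {K : Type*} [Field K] {ι : Type*} [Fintype ι] [DecidableEq ι]
  {κ τ : Type*} [Fintype κ] [DecidableEq κ] [Fintype τ] [DecidableEq τ]

/-- the Jacobian matrix -/
noncomputable def jac (e : κ ⊕ τ ≃ ι) (g : κ ⊕ τ → MvPolynomial ι K) :
    Matrix (κ ⊕ τ) (κ ⊕ τ) (MvPolynomial ι K) :=
  Matrix.of fun a b => MvPolynomial.pderiv (e b) (g a)

theorem jac_apply (e : κ ⊕ τ ≃ ι) (g : κ ⊕ τ → MvPolynomial ι K) (a b : κ ⊕ τ) :
    jac e g a b = MvPolynomial.pderiv (e b) (g a) := rfl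

/-- the cofactor derivations: they kill `g (inl k)` -/
noncomputable def cof (e : κ ⊕ τ ≃ ι) (g : κ ⊕ τ → MvPolynomial ι K) (m : τ) :
    Derivation K (MvPolynomial ι K) (MvPolynomial ι K) :=
  ∑ b, ((jac e g).adjugate b (Sum.inr m)) • MvPolynomial.pderiv (e b)

theorem cof_apply (e : κ ⊕ τ ≃ ι) (g : κ ⊕ τ → MvPolynomial ι K) (m : τ)
    (F : MvPolynomial ι K) :
    cof e g m F = ∑ b, (jac e g).adjugate b (Sum.inr m) * MvPolynomial.pderiv (e b) F := by
  unfold cof
  rw [← Derivation.coeFnAddMonoidHom_apply, map_sum, Finset.sum_apply]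
  rfl

theorem cof_g (e : κ ⊕ τ ≃ ι) (g : κ ⊕ τ → MvPolynomial ι K) (m : τ) (a : κ ⊕ τ) :
    cof e g m (g a) = if a = Sum.inr m then (jac e g).det else 0 := by
  have h := congrFun (congrFun (Matrix.mul_adjugate (jac e g)) a) (Sum.inr m)
  rw [Matrix.mul_apply, Matrix.smul_apply, Matrix.one_apply] at h
  rw [cof_apply]
  rw [show (∑ b, (jac e g).adjugate b (Sum.inr m) * MvPolynomial.pderiv (e b) (g a))
    = ∑ b, jac e g a b * (jac e g).adjugate b (Sum.inr m) from
      Finset.sum_congr rfl fun b _ => by rw [jac_apply, mul_comm], h]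
  split_ifs
  · simp
  · simp

variable {S : Type*} [CommRing S] [Algebra K S]

theorem IsDer.mulVec {φ : MvPolynomial ι K →ₐ[K] S} {Δ : MvPolynomial ι K →ₗ[K] S}
    (h : IsDer φ Δ) (e : κ ⊕ τ ≃ ι) (F : MvPolynomial ι K) :
    ∑ b, φ (MvPolynomial.pderiv (e b) F) * Δ (MvPolynomial.X (e b)) = Δ F := by
  rw [h.eq_sum F]
  exact Equiv.sum_comp e (fun i => φ (MvPolynomial.pderiv i F) * Δ (MvPolynomial.X i))

/-- the module of derivations along `φ` which kill the equations is free on any `τ`-family with
invertible matrix on the coordinates -/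
theorem exists_comb (e : κ ⊕ τ ≃ ι) (g : κ ⊕ τ → MvPolynomial ι K)
    (φ : MvPolynomial ι K →ₐ[K] S) (hJ : IsUnit (φ (jac e g).det))
    (Δ' : τ → (MvPolynomial ι K →ₗ[K] S)) (hD' : ∀ j, IsDer φ (Δ' j))
    (hk' : ∀ j k, Δ' j (g (Sum.inl k)) = 0)
    (hU : IsUnit (Matrix.of fun m j => Δ' j (g (Sum.inr m)) : Matrix τ τ S).det)
    (Δ : MvPolynomial ι K →ₗ[K] S) (hD : IsDer φ Δ) (hk : ∀ k, Δ (g (Sum.inl k)) = 0) :
    ∃ a : τ → S, ∀ F, Δ F = ∑ j, a j * Δ' j F := by
  set U : Matrix τ τ S := Matrix.of fun m j => Δ' j (g (Sum.inr m)) with hUdef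
  set J : Matrix (κ ⊕ τ) (κ ⊕ τ) S := (jac e g).map φ with hJdef
  have hJu : IsUnit J.det := by
    have : J.det = φ (jac e g).det := by
      rw [hJdef]
      exact (RingHom.map_det (φ : MvPolynomial ι K →+* S) (jac e g)).symm
    rw [this]
    exact hJ
  set a : τ → S := U⁻¹.mulVec (fun m => Δ (g (Sum.inr m))) with ha
  have hUa : U.mulVec a = fun m => Δ (g (Sum.inr m)) := by
    rw [ha, Matrix.mulVec_mulVec, Matrix.mul_nonsing_inv _ hU, Matrix.one_mulVec]
  set v : κ ⊕ τ → S := fun b => Δ (MvPolynomial.X (e b)) with hv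
  set w : κ ⊕ τ → S := fun b => ∑ j, a j * Δ' j (MvPolynomial.X (e b)) with hw
  have h1 : J.mulVec v = fun c => Δ (g c) := by
    funext c
    rw [← hD.mulVec e (g c)]
    rfl
  have h2 : J.mulVec w = fun c => ∑ j, a j * Δ' j (g c) := by
    funext c
    have : ∀ j, a j * Δ' j (g c)
        = ∑ b, φ (MvPolynomial.pderiv (e b) (g c)) * (a j * Δ' j (MvPolynomial.X (e b))) := by
      intro j
      rw [← (hD' j).mulVec e (g c), Finset.mul_sum]
      exact Finset.sum_congr rfl fun b _ => by ring
    rw [Finset.sum_congr rfl fun j _ => this j, Finset.sum_comm]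
    refine Finset.sum_congr rfl fun b _ => ?_
    rw [← Finset.mul_sum]
    rfl
  have h3 : J.mulVec v = J.mulVec w := by
    rw [h1, h2]
    funext c
    rcases c with k | m
    · rw [hk k]
      symm
      exact Finset.sum_eq_zero fun j _ => by rw [hk' j k, mul_zero]
    · have := congrFun hUa m
      rw [← this]
      exact Finset.sum_congr rfl fun j _ => by rw [mul_comm]; rfl
  have h4 : v = w := by
    have := congrArg (J⁻¹.mulVec) h3
    rwa [Matrix.mulVec_mulVec, Matrix.mulVec_mulVec, Matrix.nonsing_inv_mul _ hJu,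
      Matrix.one_mulVec, Matrix.one_mulVec] at this
  refine ⟨a, fun F => ?_⟩
  rw [← hD.mulVec e F]
  have : ∀ j, a j * Δ' j F
      = ∑ b, φ (MvPolynomial.pderiv (e b) F) * (a j * Δ' j (MvPolynomial.X (e b))) := by
    intro j
    rw [← (hD' j).mulVec e F, Finset.mul_sum]
    exact Finset.sum_congr rfl fun b _ => by ring
  rw [Finset.sum_congr rfl fun j _ => this j, Finset.sum_comm]
  refine Finset.sum_congr rfl fun b _ => ?_
  rw [← Finset.mul_sum]
  congr 1
  exact congrFun h4 b

end Jac

section Germ

variable {K : Type*} [Field K] [CharZero K] {ι : Type*} [Fintype ι] [DecidableEq ι]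
  {κ τ : Type*} [Fintype κ] [DecidableEq κ] [Fintype τ] [DecidableEq τ]
  (e : κ ⊕ τ ≃ ι) (g : κ ⊕ τ → MvPolynomial ι K) (p : ι → K)

/-- the germ at `p` of the leaf of the equations `g (inl k)` -/
noncomputable def germ : MvPolynomial ι K →ₐ[K] MvPowerSeries τ K :=
  (MvPowerSeries.mapAlgHom (MvPolynomial.aeval p)).comp (expS (cof e g))

theorem coeff_germ (F : MvPolynomial ι K) (α : τ →₀ ℕ) :
    coeff α (germ e g p F) = MvPolynomial.aeval p (coeff α (expS (cof e g) F)) := rfl

theorem constantCoeff_germ (F : MvPolynomial ι K) :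
    constantCoeff (germ e g p F) = MvPolynomial.aeval p F := by
  rw [← coeff_zero_eq_constantCoeff_apply, coeff_germ, coeff_zero_eq_constantCoeff_apply,
    constantCoeff_expS]

theorem coeff_single_germ (F : MvPolynomial ι K) (j : τ) :
    coeff (Finsupp.single j 1) (germ e g p F) = MvPolynomial.aeval p (cof e g j F) := by
  rw [coeff_germ, coeff_single_expS]

theorem germ_eq (k : κ) :
    germ e g p (g (Sum.inl k)) = C (MvPolynomial.aeval p (g (Sum.inl k))) := by
  ext α
  rw [coeff_germ, expS_of_const _ _ (fun j => by rw [cof_g]; simp), coeff_C, coeff_C]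
  split_ifs
  · rfl
  · exact map_zero _

theorem ker_prime : (RingHom.ker (germ e g p)).IsPrime := by
  have : IsDomain (MvPowerSeries τ K) := NoZeroDivisors.to_isDomain _
  exact RingHom.ker_isPrime _

/-- `∂ⱼ ∘ germ` -/
noncomputable def dgerm (j : τ) : MvPolynomial ι K →ₗ[K] MvPowerSeries τ K :=
  (MvPowerSeries.pderiv K j).toLinearMap.comp (germ e g p).toLinearMap

theorem dgerm_apply (j : τ) (F : MvPolynomial ι K) :
    dgerm e g p j F = MvPowerSeries.pderiv K j (germ e g p F) := rfl

theorem dgerm_isDer (j : τ) : IsDer (germ e g p) (dgerm e g p j) := by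
  intro F G
  rw [dgerm_apply, map_mul, Derivation.leibniz]
  rfl

/-- `germ ∘ D` -/
noncomputable def gD (D : Derivation K (MvPolynomial ι K) (MvPolynomial ι K)) :
    MvPolynomial ι K →ₗ[K] MvPowerSeries τ K :=
  (germ e g p).toLinearMap.comp D.toLinearMap

theorem gD_apply (D : Derivation K (MvPolynomial ι K) (MvPolynomial ι K))
    (F : MvPolynomial ι K) : gD e g p D F = germ e g p (D F) := rfl

theorem gD_isDer (D : Derivation K (MvPolynomial ι K) (MvPolynomial ι K)) :
    IsDer (germ e g p) (gD e g p D) := by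
  intro F G
  rw [gD_apply, Derivation.leibniz, map_add, smul_eq_mul, smul_eq_mul, map_mul, map_mul]
  rfl

variable {e g p}

theorem isUnit_germ (hp : MvPolynomial.aeval p (jac e g).det ≠ 0) :
    IsUnit (germ e g p (jac e g).det) := by
  rw [MvPowerSeries.isUnit_iff_constantCoeff, constantCoeff_germ]
  exact hp.isUnit

/-- every derivation along the germ which kills the equations is a combination of the `∂ⱼ` -/
theorem exists_comb_dgerm (hp : MvPolynomial.aeval p (jac e g).det ≠ 0)
    (Δ : MvPolynomial ι K →ₗ[K] MvPowerSeries τ K) (hD : IsDer (germ e g p) Δ)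
    (hk : ∀ k, Δ (g (Sum.inl k)) = 0) :
    ∃ a : τ → MvPowerSeries τ K, ∀ F, Δ F = ∑ j, a j * MvPowerSeries.pderiv K j (germ e g p F) := by
  refine exists_comb e g (germ e g p) (isUnit_germ hp) (dgerm e g p) (dgerm_isDer e g p) ?_ ?_
    Δ hD hk
  · intro j k
    rw [dgerm_apply, germ_eq, MvPowerSeries.pderiv_C]
  · rw [MvPowerSeries.isUnit_iff_constantCoeff, RingHom.map_det]
    have : (constantCoeff (σ := τ) (R := K)).mapMatrix
        (Matrix.of fun m j => dgerm e g p j (g (Sum.inr m)))
        = (MvPolynomial.aeval p (jac e g).det) • (1 : Matrix τ τ K) := by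
      ext m j
      rw [RingHom.mapMatrix_apply, Matrix.map_apply, Matrix.of_apply, dgerm_apply,
        ← coeff_zero_eq_constantCoeff_apply, MvPowerSeries.coeff_pderiv, zero_add,
        coeff_single_germ, cof_g, Matrix.smul_apply, Matrix.one_apply]
      by_cases h : m = j
      · subst h
        simp
      · have : ¬ (Sum.inr m : κ ⊕ τ) = Sum.inr j := fun h' => h (Sum.inr.inj h')
        simp [h]
    rw [this, Matrix.det_smul, Matrix.det_one, mul_one]
    exact (pow_ne_zero _ hp).isUnit

/-- every derivation along the germ which kills the equations is a combination of the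
cofactor derivations -/
theorem exists_comb_cof (hp : MvPolynomial.aeval p (jac e g).det ≠ 0)
    (Δ : MvPolynomial ι K →ₗ[K] MvPowerSeries τ K) (hD : IsDer (germ e g p) Δ)
    (hk : ∀ k, Δ (g (Sum.inl k)) = 0) :
    ∃ a : τ → MvPowerSeries τ K, ∀ F, Δ F = ∑ j, a j * germ e g p (cof e g j F) := by
  refine exists_comb e g (germ e g p) (isUnit_germ hp) (fun j => gD e g p (cof e g j))
    (fun j => gD_isDer e g p _) ?_ ?_ Δ hD hk
  · intro j k
    rw [gD_apply, cof_g, if_neg (by simp), map_zero]
  · have : (Matrix.of fun m j => gD e g p (cof e g j) (g (Sum.inr m)))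
        = (germ e g p (jac e g).det) • (1 : Matrix τ τ (MvPowerSeries τ K)) := by
      ext1 m j
      rw [Matrix.of_apply, gD_apply, cof_g, Matrix.smul_apply, Matrix.one_apply]
      by_cases h : m = j
      · subst h
        simp
      · simp [h]
    rw [this, Matrix.det_smul, Matrix.det_one, mul_one]
    exact (isUnit_germ hp).pow _

theorem order_pderiv_le (j : τ) (f : MvPowerSeries τ K) (n : ℕ)
    (h : ((n + 1 : ℕ) : ℕ∞) ≤ f.order) : (n : ℕ∞) ≤ (MvPowerSeries.pderiv K j f).order := by
  refine MvPowerSeries.nat_le_order fun d hd => ?_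
  rw [MvPowerSeries.coeff_pderiv, MvPowerSeries.coeff_of_lt_order, zero_mul]
  refine lt_of_lt_of_le ?_ h
  rw [map_add, Finsupp.degree_single]
  exact_mod_cast Nat.succ_lt_succ hd

theorem le_order_sum_mul (a b : τ → MvPowerSeries τ K) (n : ℕ)
    (h : ∀ j, (n : ℕ∞) ≤ (b j).order) : (n : ℕ∞) ≤ (∑ j, a j * b j).order := by
  classical
  refine MvPowerSeries.nat_le_order fun d hd => ?_
  rw [map_sum]
  refine Finset.sum_eq_zero fun j _ => ?_
  refine MvPowerSeries.coeff_of_lt_order ?_
  calc ((Finsupp.degree d : ℕ) : ℕ∞) < (n : ℕ∞) := by exact_mod_cast hd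
    _ ≤ (b j).order := h j
    _ ≤ (a j).order + (b j).order := le_add_self
    _ ≤ (a j * b j).order := MvPowerSeries.le_order_mul

/-- a derivation tangent to the leaf lowers the order by at most one -/
theorem order_germ_derivation (hp : MvPolynomial.aeval p (jac e g).det ≠ 0)
    (D : Derivation K (MvPolynomial ι K) (MvPolynomial ι K))
    (hk : ∀ k, germ e g p (D (g (Sum.inl k))) = 0) (F : MvPolynomial ι K) (n : ℕ)
    (h : ((n + 1 : ℕ) : ℕ∞) ≤ (germ e g p F).order) : (n : ℕ∞) ≤ (germ e g p (D F)).order := by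
  obtain ⟨a, ha⟩ := exists_comb_dgerm hp (gD e g p D) (gD_isDer e g p D) hk
  have := ha F
  rw [gD_apply] at this
  rw [this]
  exact le_order_sum_mul _ _ _ fun j => order_pderiv_le j _ _ h

/-- the prime of the germ is closed under all tangent derivations -/
theorem germ_derivation_eq_zero (hp : MvPolynomial.aeval p (jac e g).det ≠ 0)
    (D : Derivation K (MvPolynomial ι K) (MvPolynomial ι K))
    (hk : ∀ k, germ e g p (D (g (Sum.inl k))) = 0) (F : MvPolynomial ι K)
    (h : germ e g p F = 0) : germ e g p (D F) = 0 := by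
  obtain ⟨a, ha⟩ := exists_comb_dgerm hp (gD e g p D) (gD_isDer e g p D) hk
  have := ha F
  rw [gD_apply] at this
  rw [this]
  exact Finset.sum_eq_zero fun j _ => by rw [h, map_zero, mul_zero]

theorem germ_cof_inl (j : τ) (k : κ) : germ e g p (cof e g j (g (Sum.inl k))) = 0 := by
  rw [cof_g, if_neg (by simp), map_zero]

/-- iterated cofactor derivations along a word -/
noncomputable def word (e : κ ⊕ τ ≃ ι) (g : κ ⊕ τ → MvPolynomial ι K) (w : List τ)
    (F : MvPolynomial ι K) : MvPolynomial ι K :=
  w.foldr (fun m G => cof e g m G) F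

theorem word_nil (F : MvPolynomial ι K) : word e g [] F = F := rfl

theorem word_cons (m : τ) (w : List τ) (F : MvPolynomial ι K) :
    word e g (m :: w) F = cof e g m (word e g w F) := rfl

theorem word_append (w w' : List τ) (F : MvPolynomial ι K) :
    word e g (w ++ w') F = word e g w (word e g w' F) := by
  unfold word
  rw [List.foldr_append]

theorem word_add (w : List τ) (F G : MvPolynomial ι K) :
    word e g w (F + G) = word e g w F + word e g w G := by
  induction w with
  | nil => rfl
  | cons m w ih => rw [word_cons, word_cons, word_cons, ih, map_add]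

theorem word_smul (w : List τ) (a : K) (F : MvPolynomial ι K) :
    word e g w (a • F) = a • word e g w F := by
  induction w with
  | nil => rfl
  | cons m w ih => rw [word_cons, word_cons, ih, Derivation.map_smul]

theorem word_zero (w : List τ) : word e g w (0 : MvPolynomial ι K) = 0 := by
  have := word_smul (e := e) (g := g) w 0 (0 : MvPolynomial ι K)
  simpa using this

/-- **order of the germ = order of vanishing along the leaf** -/
theorem le_order_germ_iff (hp : MvPolynomial.aeval p (jac e g).det ≠ 0) (F : MvPolynomial ι K)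
    (n : ℕ) : (n : ℕ∞) ≤ (germ e g p F).order ↔
      ∀ w : List τ, w.length < n → MvPolynomial.aeval p (word e g w F) = 0 := by
  constructor
  · intro h w hw
    have key : ∀ (w : List τ) (m : ℕ), ((m + w.length : ℕ) : ℕ∞) ≤ (germ e g p F).order →
        (m : ℕ∞) ≤ (germ e g p (word e g w F)).order := by
      intro w
      induction w with
      | nil => intro m hm; simpa using! hm
      | cons j w ih =>
        intro m hm
        rw [word_cons]
        refine order_germ_derivation hp _ (germ_cof_inl j) _ _ (ih (m + 1) ?_)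
        rw [List.length_cons] at hm
        rwa [show m + 1 + w.length = m + (w.length + 1) by omega]
    have h1 : ((1 : ℕ) : ℕ∞) ≤ (germ e g p (word e g w F)).order := by
      refine key w 1 (le_trans ?_ h)
      exact_mod_cast (by omega : 1 + w.length ≤ n)
    rw [← constantCoeff_germ e g p, ← coeff_zero_eq_constantCoeff_apply]
    refine MvPowerSeries.coeff_of_lt_order (lt_of_lt_of_le ?_ h1)
    simp
  · intro h
    refine MvPowerSeries.nat_le_order fun d hd => ?_
    rw [coeff_germ]
    let A : ℕ → Submodule K (MvPolynomial ι K) := fun k =>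
      { carrier := {G | ∀ w : List τ, w.length + k < n → MvPolynomial.aeval p (word e g w G) = 0}
        add_mem' := by
          intro G G' hG hG' w hw
          rw [word_add, map_add, hG w hw, hG' w hw, add_zero]
        zero_mem' := by
          intro w _
          rw [word_zero, map_zero]
        smul_mem' := by
          intro a G hG w hw
          rw [word_smul, map_smul, hG w hw, smul_zero] }
    have hA : coeff d (expS (cof e g) F) ∈ A (Finsupp.degree d) := by
      refine coeff_expS_mem (cof e g) A ?_ F ?_ d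
      · intro k j x hx w hw
        have := hx (w ++ [j]) (by simp; omega)
        rwa [word_append] at this
      · intro w hw
        exact h w (by simpa using hw)
    have := hA [] (by simpa using hd)
    rwa [word_nil] at this

theorem germ_eq_zero_iff (hp : MvPolynomial.aeval p (jac e g).det ≠ 0) (F : MvPolynomial ι K) :
    germ e g p F = 0 ↔ ∀ w : List τ, MvPolynomial.aeval p (word e g w F) = 0 := by
  constructor
  · intro h w
    refine (le_order_germ_iff hp F (w.length + 1)).1 ?_ w (Nat.lt_succ_self _)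
    rw [h, MvPowerSeries.order_zero]
    exact le_top
  · intro h
    rw [← MvPowerSeries.order_eq_top_iff]
    refine ENat.eq_top_iff_forall_ge.2 fun n => ?_
    exact (le_order_germ_iff hp F n).2 fun w _ => h w

end Germ

end Vale.Agent.P054.T2.H275
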