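import Vale.Agent.P054.T2.H275.Vert
import Vale.Agent.P054.T2.H930.Jets
import Vale.Agent.P054.T2.H441.Dense2

set_option linter.unusedSectionVars false

/-!
# P054 / T2, (D3): the horizontal dimension of the hats is the dimension of the base (helper275)
-/

namespace Vale.Agent.P054.T2.H275

open MvPolynomial Module

section Horiz

variable {K : Type*} [Field K] [CharZero K] {α β : Type*} [Fintype α] [DecidableEq α]
  [Fintype β] [DecidableEq β]

theorem rename_mem_Vw (W : ℕ) {G : MvPolynomial α K} {n : ℕ} (hG : G.totalDegree ≤ n) :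
    (rename Sum.inl G : MvPolynomial (α ⊕ β) K) ∈
      H580.Vw K (Sum.elim (fun _ => 1) (fun _ => W)) n := by
  classical
  rw [H580.mem_Vw]
  intro s hs
  obtain ⟨u, rfl, hu⟩ := coeff_rename_ne_zero _ _ _ (MvPolynomial.mem_support_iff.1 hs)
  have h1 := le_totalDegree (MvPolynomial.mem_support_iff.2 hu)
  have h3 : Finsupp.weight (Sum.elim (fun _ => 1) (fun _ => W) : α ⊕ β → ℕ)
      (Finsupp.mapDomain Sum.inl u) = u.sum fun _ e => e := by
    rw [Finsupp.weight_apply, Finsupp.sum_mapDomain_index (by simp) (by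
      intros; rw [add_smul])]
    simp
  rw [h3]
  exact h1.trans hG

/-- **upper bound**: horizontal Hilbert function of a family of hat germs with a common system and
common independent vertical variables -/
theorem hilb_upper {ι : Type*} (A : Finset ι) (z : ι → α ⊕ β → K) {c : ℕ}
    (f : Fin c → MvPolynomial (α ⊕ β) K) (d : ℕ → ℕ) (hd1 : ∀ j < c, 1 ≤ d j) (W : ℕ) (hW : W ≠ 0)
    (hfV : ∀ j : Fin c, f j ∈ H580.Vw K (Sum.elim (fun _ => 1) (fun _ => W)) (d j))
    (hf : ∀ i ∈ A, ∀ j, eval (z i) (f j) = 0)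
    (hind : ∀ i ∈ A, LinearIndependent K (fun j => H930.grad (z i) (f j)))
    {v : ℕ} (b : Fin v → β) (hb : ∀ i ∈ A, IndepOver (H930.germ (z i) f) b) (q : ℕ) :
    (q * W + 1) ^ c * (H580.hilbF (restrictTotalDegree α K)
        ((⨅ i ∈ A, H930.germ (z i) f).comap (rename Sum.inl)) (q * W) * (q + 1) ^ v)
      ≤ (∏ j ∈ Finset.range c, d j) *
        ((v + 1 + c) ^ (Fintype.card α + Fintype.card β) *
          ((q * W + 1) ^ Fintype.card α * (q + 1) ^ Fintype.card β)) := by
  classical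
  set w : α ⊕ β → ℕ := Sum.elim (fun _ => 1) (fun _ => W) with hw
  have hw0 : ∀ i, w i ≠ 0 := by
    rintro (i | i)
    · simp [hw]
    · simpa [hw] using hW
  have hV := H580.isFilt_Vw (k := K) w hw0
  set I := ⨅ i ∈ A, H930.germ (z i) f with hI
  have h1 := hilb_mul_le W hW I b (IndepOver.iInf A _ b hb) (q * W) q
  have h2 : (q * W + 1) ^ c * H580.hilbF (H580.Vw K w) I (q * W + v * (q * W)) ≤
      (∏ j ∈ Finset.range c, d j) *
        finrank K (H580.Vw K w (q * W + v * (q * W) + c * (q * W))) := by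
    have h3 := hV.hilbF_primes A (fun j i => H930.germChain (z i) f j) c
      (fun j _ i hi => H930.germChain_isPrime (hf i hi) (hind i hi) j)
      (fun j _ i _ => H930.germChain_mono (z i) f (Nat.le_succ j))
      (fun j => if h : j < c then f ⟨j, h⟩ else 0)
      (fun j hj i _ => by
        rw [dif_pos hj]
        exact H930.mem_germChain_succ (z i) f ⟨j, hj⟩)
      (fun j hj i hi => by
        rw [dif_pos hj]
        exact H930.notMem_germChain (hf i hi) (hind i hi) ⟨j, hj⟩)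
      d hd1 (fun j hj => by
        rw [dif_pos hj]
        exact hfV ⟨j, hj⟩) (q * W + v * (q * W)) (q * W)
    have h4 : (⨅ i ∈ A, H930.germChain (z i) f c) = I := by
      rw [hI]
      exact iInf_congr fun i => iInf_congr fun _ => H930.germChain_top (z i) f le_rfl
    rw [h4] at h3
    exact h3
  have h5 : finrank K (H580.Vw K w (q * W + v * (q * W) + c * (q * W)))
      ≤ (v + 1 + c) ^ (Fintype.card α + Fintype.card β) *
          ((q * W + 1) ^ Fintype.card α * (q + 1) ^ Fintype.card β) := by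
    refine (H580.finrank_Vw_le w hw0 _).trans ?_
    rw [Fintype.prod_sum_type]
    have e1 : q * W + v * (q * W) + c * (q * W) = (v + 1 + c) * q * W := by ring
    have e2 : ∀ x : α, (q * W + v * (q * W) + c * (q * W)) / w (Sum.inl x) + 1
        ≤ (v + 1 + c) * (q * W + 1) := by
      intro x
      have : w (Sum.inl x) = 1 := rfl
      rw [this, Nat.div_one, e1]
      nlinarith
    have e3 : ∀ x : β, (q * W + v * (q * W) + c * (q * W)) / w (Sum.inr x) + 1
        ≤ (v + 1 + c) * (q + 1) := by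
      intro x
      have : w (Sum.inr x) = W := rfl
      rw [this, e1, Nat.mul_div_cancel _ (Nat.pos_of_ne_zero hW)]
      nlinarith
    calc (∏ x : α, ((q * W + v * (q * W) + c * (q * W)) / w (Sum.inl x) + 1)) *
          ∏ x : β, ((q * W + v * (q * W) + c * (q * W)) / w (Sum.inr x) + 1)
        ≤ (∏ _x : α, ((v + 1 + c) * (q * W + 1))) * ∏ _x : β, ((v + 1 + c) * (q + 1)) :=
          Nat.mul_le_mul (Finset.prod_le_prod' fun x _ => e2 x)
            (Finset.prod_le_prod' fun x _ => e3 x)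
      _ = _ := by
          rw [Finset.prod_const, Finset.prod_const, Finset.card_univ, Finset.card_univ, mul_pow,
            mul_pow, pow_add]
          ring
  calc (q * W + 1) ^ c * (H580.hilbF (restrictTotalDegree α K) (I.comap (rename Sum.inl)) (q * W) *
          (q + 1) ^ v)
      ≤ (q * W + 1) ^ c * H580.hilbF (H580.Vw K w) I (q * W + v * (q * W)) :=
        Nat.mul_le_mul_left _ h1
    _ ≤ _ := h2
    _ ≤ _ := Nat.mul_le_mul_left _ h5

/-- the arithmetic -/
theorem horiz_arith {N M c c₁ v q W D δ L h K₀ : ℕ} (hc : c₁ ≤ c) (hcN : c₁ ≤ N) (hq : 1 ≤ q)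
    (hW : 1 ≤ W) (hδ : 1 ≤ δ)
    (hup : (q * W + 1) ^ c * (h * (q + 1) ^ v)
      ≤ (δ * (W * D) ^ (c - c₁)) * (K₀ * ((q * W + 1) ^ N * (q + 1) ^ M)))
    (hlow : δ * (q * W) ^ (N - c₁) ≤ L * h)
    (hbig : 2 ^ (N + c) * L * K₀ * D ^ (c - c₁) ≤ q) : c + v ≤ c₁ + M := by
  by_contra hcon
  push Not at hcon
  have hqW : 1 ≤ q * W := Nat.mul_pos hq hW
  -- step 1
  have h1 : δ * (q * W + 1) ^ (N - c₁) ≤ 2 ^ (N - c₁) * (L * h) := by
    calc δ * (q * W + 1) ^ (N - c₁) ≤ δ * (2 * (q * W)) ^ (N - c₁) :=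
          Nat.mul_le_mul_left _ (Nat.pow_le_pow_left (by omega) _)
      _ = 2 ^ (N - c₁) * (δ * (q * W) ^ (N - c₁)) := by rw [mul_pow]; ring
      _ ≤ _ := Nat.mul_le_mul_left _ hlow
  have h2 : δ * ((q * W + 1) ^ (N - c₁) * (q * W + 1) ^ c * (q + 1) ^ v)
      ≤ δ * (2 ^ (N - c₁) * L * (W * D) ^ (c - c₁) * (K₀ * ((q * W + 1) ^ N * (q + 1) ^ M))) := by
    calc δ * ((q * W + 1) ^ (N - c₁) * (q * W + 1) ^ c * (q + 1) ^ v)
        = (δ * (q * W + 1) ^ (N - c₁)) * ((q * W + 1) ^ c * (q + 1) ^ v) := by ring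
      _ ≤ (2 ^ (N - c₁) * (L * h)) * ((q * W + 1) ^ c * (q + 1) ^ v) := Nat.mul_le_mul_right _ h1
      _ = 2 ^ (N - c₁) * L * ((q * W + 1) ^ c * (h * (q + 1) ^ v)) := by ring
      _ ≤ 2 ^ (N - c₁) * L * ((δ * (W * D) ^ (c - c₁)) *
            (K₀ * ((q * W + 1) ^ N * (q + 1) ^ M))) := Nat.mul_le_mul_left _ hup
      _ = _ := by ring
  have h3 := Nat.le_of_mul_le_mul_left h2 hδ
  -- cancel `(q W + 1)^N`
  have h4 : (q * W + 1) ^ (N - c₁) * (q * W + 1) ^ c = (q * W + 1) ^ N * (q * W + 1) ^ (c - c₁) := by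
    rw [← pow_add, ← pow_add]
    congr 1
    omega
  rw [h4] at h3
  have h5 : (q * W + 1) ^ N * ((q * W + 1) ^ (c - c₁) * (q + 1) ^ v)
      ≤ (q * W + 1) ^ N * (2 ^ (N - c₁) * L * (W * D) ^ (c - c₁) * K₀ * (q + 1) ^ M) := by
    calc _ = (q * W + 1) ^ N * (q * W + 1) ^ (c - c₁) * (q + 1) ^ v := by ring
      _ ≤ _ := h3
      _ = _ := by ring
  have h6 := Nat.le_of_mul_le_mul_left h5 (pow_pos (Nat.succ_pos _) _)
  -- `W (q+1) ≤ 2 (q W + 1)`
  have h7 : W * (q + 1) ≤ 2 * (q * W + 1) := by nlinarith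
  have h8 : W ^ (c - c₁) * ((q + 1) ^ (c - c₁) * (q + 1) ^ v)
      ≤ W ^ (c - c₁) * (2 ^ (c - c₁) * 2 ^ (N - c₁) * L * D ^ (c - c₁) * K₀ * (q + 1) ^ M) := by
    calc W ^ (c - c₁) * ((q + 1) ^ (c - c₁) * (q + 1) ^ v)
        = (W * (q + 1)) ^ (c - c₁) * (q + 1) ^ v := by rw [mul_pow]; ring
      _ ≤ (2 * (q * W + 1)) ^ (c - c₁) * (q + 1) ^ v :=
          Nat.mul_le_mul_right _ (Nat.pow_le_pow_left h7 _)
      _ = 2 ^ (c - c₁) * ((q * W + 1) ^ (c - c₁) * (q + 1) ^ v) := by rw [mul_pow]; ring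
      _ ≤ 2 ^ (c - c₁) * (2 ^ (N - c₁) * L * (W * D) ^ (c - c₁) * K₀ * (q + 1) ^ M) :=
          Nat.mul_le_mul_left _ h6
      _ = _ := by rw [mul_pow]; ring
  have h9 := Nat.le_of_mul_le_mul_left h8 (pow_pos hW _)
  have h10 : (q + 1) ^ (M + 1) ≤ (q + 1) ^ (c - c₁) * (q + 1) ^ v := by
    rw [← pow_add]
    exact Nat.pow_le_pow_right (Nat.succ_pos _) (by omega)
  have h11 : (q + 1) ^ M * (q + 1)
      ≤ (q + 1) ^ M * (2 ^ (c - c₁) * 2 ^ (N - c₁) * L * D ^ (c - c₁) * K₀) := by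
    calc (q + 1) ^ M * (q + 1) = (q + 1) ^ (M + 1) := (pow_succ _ _).symm
      _ ≤ _ := h10
      _ ≤ _ := h9
      _ = _ := by ring
  have h12 := Nat.le_of_mul_le_mul_left h11 (pow_pos (Nat.succ_pos _) _)
  have h13 : 2 ^ (c - c₁) * 2 ^ (N - c₁) ≤ 2 ^ (N + c) := by
    rw [← pow_add]
    exact Nat.pow_le_pow_right (by norm_num) (by omega)
  have h14 : 2 ^ (c - c₁) * 2 ^ (N - c₁) * L * D ^ (c - c₁) * K₀
      ≤ 2 ^ (N + c) * L * K₀ * D ^ (c - c₁) := by
    calc 2 ^ (c - c₁) * 2 ^ (N - c₁) * L * D ^ (c - c₁) * K₀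
        ≤ 2 ^ (N + c) * L * D ^ (c - c₁) * K₀ := by gcongr
      _ = _ := by ring
  omega

/-- the points of a vanishing ideal bound its Hilbert function from below -/
theorem rkY_le_hilb {ι : Type*} (A : Finset ι) (z : ι → α ⊕ β → K)
    (I : Ideal (MvPolynomial (α ⊕ β) K)) (hI : ∀ i ∈ A, ∀ F ∈ I, eval (z i) F = 0) (n : ℕ)
    [DecidableEq (α → K)] :
    H441.rkY (A.image fun i => fun x => z i (Sum.inl x)) n
      ≤ H580.hilbF (restrictTotalDegree α K) (I.comap (rename Sum.inl)) n := by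
  refine H441.rkY_le_hF _ _ ?_ n
  intro F hF p hp
  obtain ⟨i, hi, rfl⟩ := Finset.mem_image.1 hp
  have h1 := hI i hi _ hF
  rw [eval_rename] at h1
  exact h1

/-- **(D3).**  Common hat system `f` of `c` equations, the first `c₁` of them horizontal; vertical
rank `≤ M - v` at all points of `E`; germs over `A` good for `E`; lower bound for the horizontal
points of dense subsets of `A` at one scale `q W`.  Then `c + v ≤ c₁ + M`, i.e.
`N - c₁ ≤ (N + M - c) - v`: the horizontal dimension of the hat germs is at least the dimension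
of the base. -/
theorem horiz {ι : Type*} [DecidableEq (α → K)] (E : Set ι) (A : Finset ι)
    (z : ι → α ⊕ β → K) {c c₁ : ℕ} (hc : c₁ ≤ c) (hcN : c₁ ≤ Fintype.card α)
    (f : Fin c → MvPolynomial (α ⊕ β) K) (δ : ℕ → ℕ) (hδ : ∀ j < c₁, 1 ≤ δ j)
    (W D : ℕ) (hW : 1 ≤ W) (hD : 1 ≤ D)
    (hf1 : ∀ j : Fin c, (j : ℕ) < c₁ →
      f j ∈ H580.Vw K (Sum.elim (fun _ => 1) (fun _ => W)) (δ j))
    (hf2 : ∀ j : Fin c, c₁ ≤ (j : ℕ) →
      f j ∈ H580.Vw K (Sum.elim (fun _ => 1) (fun _ => W)) (W * D))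
    (hf : ∀ i ∈ A, ∀ j, eval (z i) (f j) = 0)
    (hind : ∀ i ∈ A, LinearIndependent K (fun j => H930.grad (z i) (f j)))
    (l v : ℕ) (hv : v ≤ Fintype.card β)
    (hl : ∀ j b, pderiv (Sum.inr b) (f j) ∈
      H580.Vw K (Sum.elim (fun _ => 1) (fun _ => W)) l)
    (hgood : ∀ i ∈ A, ∀ F ∈ H580.Vw K (Sum.elim (fun _ => 1) (fun _ => W))
        ((Fintype.card β - v + 1) * l),
      (∀ x ∈ E, eval (z x) F = 0) → F ∈ H930.germ (z i) f)
    (hr : ∀ x ∈ E, ((Matrix.of fun i b => pderiv (Sum.inr b) (f i) :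
        Matrix (Fin c) β (MvPolynomial (α ⊕ β) K)).map (eval (z x))).rank
          ≤ Fintype.card β - v)
    (q L : ℕ) (hq : 1 ≤ q)
    (hlow : ∀ A' ⊆ A, A.card ≤ Fintype.card β ^ v * A'.card →
      (∏ j ∈ Finset.range c₁, δ j) * (q * W) ^ (Fintype.card α - c₁)
        ≤ L * H441.rkY (A'.image fun i => fun x => z i (Sum.inl x)) (q * W))
    (hbig : 2 ^ (Fintype.card α + c) * L * (v + 1 + c) ^ (Fintype.card α + Fintype.card β)
      * D ^ (c - c₁) ≤ q) :
    c + v ≤ c₁ + Fintype.card β := by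
  classical
  set w : α ⊕ β → ℕ := Sum.elim (fun _ => 1) (fun _ => W) with hw
  have hW0 : W ≠ 0 := by omega
  have hw0 : ∀ i, w i ≠ 0 := by
    rintro (i | i)
    · simp [hw]
    · simpa [hw] using hW0
  have hV := H580.isFilt_Vw (k := K) w hw0
  -- choice of the vertical variables
  have hex : ∀ i : ι, ∃ b : Fin v → β, i ∈ A → IndepOver (H930.germ (z i) f) b := by
    intro i
    by_cases hi : i ∈ A
    · obtain ⟨b, hb⟩ := exists_indep (z i) f (hf i hi) (hind i hi) E z (H580.Vw K w) hV l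
        (Fintype.card β - v) v hl (hgood i hi) hr (by omega)
      exact ⟨b, fun _ => hb⟩
    · by_cases hne : Nonempty (Fin v → β)
      · exact ⟨hne.some, fun h => absurd h hi⟩
      · exfalso
        apply hne
        have : Nonempty (Fin v ↪ β) := Function.Embedding.nonempty_of_card_le (by simpa using hv)
        exact ⟨fun t => this.some t⟩
  choose B hB using hex
  -- pigeonhole
  obtain ⟨b, hbcard⟩ : ∃ b : Fin v → β, A.card ≤ Fintype.card β ^ v *
      (A.filter fun i => B i = b).card := by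
    have hne : (Finset.univ : Finset (Fin v → β)).Nonempty := by
      have : Nonempty (Fin v ↪ β) := Function.Embedding.nonempty_of_card_le (by simpa using hv)
      exact ⟨fun t => this.some t, Finset.mem_univ _⟩
    have h1 : A.card = ∑ b : Fin v → β, (A.filter fun i => B i = b).card :=
      Finset.card_eq_sum_card_fiberwise (f := B) (t := Finset.univ) (fun _ _ => by simp)
    obtain ⟨b, -, hb⟩ := Finset.exists_max_image Finset.univ
      (fun b : Fin v → β => (A.filter fun i => B i = b).card) hne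
    refine ⟨b, ?_⟩
    rw [h1]
    calc ∑ b : Fin v → β, (A.filter fun i => B i = b).card
        ≤ ∑ _b : Fin v → β, (A.filter fun i => B i = b).card :=
          Finset.sum_le_sum fun b' hb' => hb b' hb'
      _ = _ := by
          rw [Finset.sum_const, Finset.card_univ, Fintype.card_fun, Fintype.card_fin, smul_eq_mul]
  set A' := A.filter fun i => B i = b with hA'
  have hA'sub : A' ⊆ A := Finset.filter_subset _ _
  let d : ℕ → ℕ := fun j => if j < c₁ then δ j else W * D
  have hprod : ∏ j ∈ Finset.range c, d j = (∏ j ∈ Finset.range c₁, δ j) * (W * D) ^ (c - c₁) := by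
    obtain ⟨m, rfl⟩ := Nat.exists_eq_add_of_le hc
    rw [Finset.prod_range_add, Nat.add_sub_cancel_left]
    congr 1
    · refine Finset.prod_congr rfl fun j hj => ?_
      simp only [d]
      rw [if_pos (Finset.mem_range.1 hj)]
    · rw [Finset.prod_congr rfl (g := fun _ => W * D), Finset.prod_const, Finset.card_range]
      intro j _
      simp only [d]
      rw [if_neg (by omega)]
  have hup := hilb_upper A' z f d (fun j hj => ?_) W hW0 (fun j => ?_)
    (fun i hi => hf i (hA'sub hi)) (fun i hi => hind i (hA'sub hi)) b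
    (fun i hi => ?_) q
  · rw [hprod] at hup
    have hlo := hlow A' hA'sub hbcard
    have hrk := rkY_le_hilb A' z (⨅ i ∈ A', H930.germ (z i) f) (fun i hi F hF => by
      simp only [Submodule.mem_iInf] at hF
      exact H930.eval_eq_zero_of_mem_germ (hf i (hA'sub hi)) (hF i hi)) (q * W)
    refine horiz_arith hc hcN hq hW (Nat.succ_le_of_lt
      (Finset.prod_pos fun j hj => Nat.lt_of_lt_of_le Nat.zero_lt_one (hδ j (Finset.mem_range.1 hj))))
      hup (hlo.trans (Nat.mul_le_mul_left _ hrk)) hbig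
  · simp only [d]
    split_ifs with h
    · exact hδ j h
    · exact Nat.mul_pos hW hD
  · simp only [d]
    split_ifs with h
    · exact hf1 j h
    · exact hf2 j (by omega)
  · have h1 := hB i (hA'sub hi)
    rwa [(Finset.mem_filter.1 hi).2] at h1

end Horiz

end Vale.Agent.P054.T2.H275
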