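import Vale.Agent.P054.T2.H275.Horiz
import Vale.Agent.P054.T2.H580.FiltDense

set_option linter.unusedSectionVars false

/-!
# P054 / T2, (D3) and [DOM] with weights on the base (helper275)
-/

namespace Vale.Agent.P054.T2.H275

open MvPolynomial Module

section Weighted

variable {K : Type*} [Field K] {α β : Type*} {v : ℕ}

theorem rename_mem_Vw_w (wα : α → ℕ) (W : ℕ) {G : MvPolynomial α K} {n : ℕ}
    (hG : G ∈ H580.Vw K wα n) :
    (rename Sum.inl G : MvPolynomial (α ⊕ β) K) ∈ H580.Vw K (Sum.elim wα (fun _ => W)) n := by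
  classical
  rw [H580.mem_Vw] at hG ⊢
  intro s hs
  obtain ⟨u, rfl, hu⟩ := coeff_rename_ne_zero _ _ _ (MvPolynomial.mem_support_iff.1 hs)
  have h1 := hG u (MvPolynomial.mem_support_iff.2 hu)
  have h3 : Finsupp.weight (Sum.elim wα (fun _ => W) : α ⊕ β → ℕ)
      (Finsupp.mapDomain Sum.inl u) = Finsupp.weight wα u := by
    rw [Finsupp.weight_apply, Finsupp.weight_apply, Finsupp.sum_mapDomain_index (by simp) (by
      intros; rw [add_smul])]
    simp
  rw [h3]
  exact h1

/-- **products of horizontal polynomials and vertical monomials are independent** -/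
theorem hilb_mul_le_w [Finite α] [Finite β] (wα : α → ℕ) (hwα : ∀ i, wα i ≠ 0) (W : ℕ) (hW : W ≠ 0)
    (I : Ideal (MvPolynomial (α ⊕ β) K)) (b : Fin v → β) (hI : IndepOver I b) (n j : ℕ) :
    H580.hilbF (H580.Vw K wα) (I.comap (rename Sum.inl)) n * (j + 1) ^ v
      ≤ H580.hilbF (H580.Vw K (Sum.elim wα (fun _ => W))) I (n + v * (j * W)) := by
  classical
  set w : α ⊕ β → ℕ := Sum.elim wα (fun _ => W) with hw
  have hw0 : ∀ i, w i ≠ 0 := by
    rintro (i | i)
    · simpa [hw] using hwα i
    · simpa [hw] using hW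
  have hV := H580.isFilt_Vw (k := K) w hw0
  have hVα := H580.isFilt_Vw (k := K) wα hwα
  set Iα := I.comap (rename Sum.inl : MvPolynomial α K →ₐ[K] MvPolynomial (α ⊕ β) K) with hIα
  set Q := (H580.Vw K wα n).map (Ideal.Quotient.mkₐ K Iα).toLinearMap with hQ
  have hfQ : Module.Finite K Q := hVα.finite_map Iα n
  set m := finrank K Q with hm
  let bas : Basis (Fin m) K Q := Module.finBasis K Q
  have hlift : ∀ l, ∃ F ∈ H580.Vw K wα n, (Ideal.Quotient.mkₐ K Iα) F = (bas l : _) := by
    intro l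
    obtain ⟨F, hF, hF'⟩ := (bas l).2
    exact ⟨F, hF, hF'⟩
  choose F hF hF' using hlift
  -- the family
  let mon : (Fin v → Fin (j + 1)) → MvPolynomial (Fin v) (MvPolynomial α K) := fun μ =>
    monomial (Finsupp.equivFunOnFinite.symm fun t => (μ t : ℕ)) 1
  let el : Fin m × (Fin v → Fin (j + 1)) → MvPolynomial (α ⊕ β) K := fun x =>
    rename Sum.inl (F x.1) * Th K b (mon x.2)
  have hrename : ∀ G ∈ H580.Vw K wα n,
      (rename Sum.inl G : MvPolynomial (α ⊕ β) K) ∈ H580.Vw K w n := fun G hG =>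
    rename_mem_Vw_w wα W hG
  have hmonV : ∀ μ, Th K (α := α) b (mon μ) ∈ H580.Vw K w (v * (j * W)) := by
    intro μ
    have h1 : Th K (α := α) b (mon μ) = ∏ t, (X (Sum.inr (b t))) ^ (μ t : ℕ) := by
      change Th K b (monomial _ 1) = _
      rw [monomial_eq, map_one, one_mul, Finsupp.prod_fintype _ _ (by simp), map_prod]
      refine Finset.prod_congr rfl fun t _ => ?_
      rw [map_pow, Th_X]
      simp
    rw [h1]
    have h2 : ∀ s : Finset (Fin v), ∏ t ∈ s, (X (Sum.inr (b t)) : MvPolynomial (α ⊕ β) K) ^ (μ t : ℕ)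
        ∈ H580.Vw K w (s.card * (j * W)) := by
      intro s
      induction s using Finset.induction_on with
      | empty =>
        rw [Finset.prod_empty, Finset.card_empty, zero_mul]
        exact hV.one
      | insert a s ha ih =>
        rw [Finset.prod_insert ha, Finset.card_insert_of_notMem ha]
        have h3 : (X (Sum.inr (b a)) : MvPolynomial (α ⊕ β) K) ^ (μ a : ℕ) ∈ H580.Vw K w (j * W) := by
          have h4 := hV.pow_mem (H580.X_mem_Vw (k := K) w (Sum.inr (b a))) (μ a : ℕ)
          refine hV.mono ?_ h4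
          have h5 : (μ a : ℕ) ≤ j := Nat.lt_succ_iff.1 (μ a).2
          exact Nat.mul_le_mul_right _ h5
        have := hV.mul h3 ih
        rwa [show j * W + s.card * (j * W) = (s.card + 1) * (j * W) by ring] at this
    have := h2 Finset.univ
    rwa [Finset.card_univ, Fintype.card_fin] at this
  have hel : ∀ x, el x ∈ H580.Vw K w (n + v * (j * W)) := fun x =>
    hV.mul (hrename _ (hF x.1)) (hmonV x.2)
  set S := (H580.Vw K w (n + v * (j * W))).map (Ideal.Quotient.mkₐ K I).toLinearMap with hS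
  have hfS : Module.Finite K S := hV.finite_map I _
  let g : Fin m × (Fin v → Fin (j + 1)) → S := fun x =>
    ⟨Ideal.Quotient.mk I (el x), el x, hel x, rfl⟩
  have hli : LinearIndependent K g := by
    rw [Fintype.linearIndependent_iff]
    intro c hc
    -- the polynomial with these coefficients
    let p : MvPolynomial (Fin v) (MvPolynomial α K) :=
      ∑ μ, monomial (Finsupp.equivFunOnFinite.symm fun t => ((μ : Fin v → Fin (j + 1)) t : ℕ))
        (∑ l, c (l, μ) • F l)
    have hp : Th K b p ∈ I := by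
      have h1 : ∑ x, c x • Ideal.Quotient.mk I (el x) = 0 := by
        have := congrArg (fun s : S => (s : MvPolynomial (α ⊕ β) K ⧸ I)) hc
        simpa [g] using! this
      have h2 : Th K b p = ∑ x, c x • el x := by
        rw [Fintype.sum_prod_type_right]
        change Th K b (∑ μ, _) = _
        rw [map_sum]
        refine Finset.sum_congr rfl fun μ _ => ?_
        have h3 : (monomial (Finsupp.equivFunOnFinite.symm fun t => (μ t : ℕ)) (∑ l, c (l, μ) • F l) :
            MvPolynomial (Fin v) (MvPolynomial α K))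
            = C (∑ l, c (l, μ) • F l) * mon μ := by
          change _ = C _ * monomial _ 1
          rw [C_mul_monomial, mul_one]
        rw [h3, map_mul, Th_C, map_sum, Finset.sum_mul]
        refine Finset.sum_congr rfl fun l _ => ?_
        rw [map_smul, smul_mul_assoc]
      rw [h2, ← Ideal.Quotient.eq_zero_iff_mem, map_sum, ← h1]
      refine Finset.sum_congr rfl fun x _ => ?_
      exact map_smul (Ideal.Quotient.mkₐ K I) (c x) (el x)
    have hcoef : ∀ μ : Fin v → Fin (j + 1),
        coeff (Finsupp.equivFunOnFinite.symm fun t => (μ t : ℕ)) p = ∑ l, c (l, μ) • F l := by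
      intro μ
      change coeff _ (∑ μ', _) = _
      rw [coeff_sum, Finset.sum_eq_single μ]
      · rw [coeff_monomial, if_pos rfl]
      · intro μ' _ hne
        rw [coeff_monomial, if_neg]
        intro h
        apply hne
        have h1 := Finsupp.equivFunOnFinite.symm.injective h
        funext t
        exact Fin.ext (congrFun h1 t)
      · intro h
        exact absurd (Finset.mem_univ _) h
    rintro ⟨l, μ⟩
    have h1 := hI p hp (Finsupp.equivFunOnFinite.symm fun t => (μ t : ℕ))
    rw [hcoef] at h1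
    have h2 : ∑ l, c (l, μ) • (bas l) = 0 := by
      apply Subtype.ext
      have h3 : (Ideal.Quotient.mkₐ K Iα) (∑ l, c (l, μ) • F l) = 0 := by
        rw [Ideal.Quotient.mkₐ_eq_mk, Ideal.Quotient.eq_zero_iff_mem]
        exact h1
      rw [map_sum] at h3
      rw [Submodule.coe_sum, Submodule.coe_zero, ← h3]
      refine Finset.sum_congr rfl fun l _ => ?_
      rw [Submodule.coe_smul, map_smul, hF']
    exact Fintype.linearIndependent_iff.1 bas.linearIndependent (fun l => c (l, μ)) h2 l
  have h1 := hli.fintype_card_le_finrank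
  rw [Fintype.card_prod, Fintype.card_fin, Fintype.card_fun, Fintype.card_fin, Fintype.card_fin] at h1
  exact h1

end Weighted

section HorizW

variable {K : Type*} [Field K] [CharZero K] {α β : Type*} [Fintype α] [DecidableEq α]
  [Fintype β] [DecidableEq β]

/-- upper bound with weights -/
theorem hilb_upper_w {ι : Type*} (A : Finset ι) (z : ι → α ⊕ β → K) {c : ℕ}
    (f : Fin c → MvPolynomial (α ⊕ β) K) (d : ℕ → ℕ) (hd1 : ∀ j < c, 1 ≤ d j)
    (wα : α → ℕ) (W : ℕ) (hW : W ≠ 0) (hwα : ∀ i, wα i ≠ 0) (hwW : ∀ i, wα i ≤ W)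
    (hfV : ∀ j : Fin c, f j ∈ H580.Vw K (Sum.elim wα (fun _ => W)) (d j))
    (hf : ∀ i ∈ A, ∀ j, eval (z i) (f j) = 0)
    (hind : ∀ i ∈ A, LinearIndependent K (fun j => H930.grad (z i) (f j)))
    {v : ℕ} (b : Fin v → β) (hb : ∀ i ∈ A, IndepOver (H930.germ (z i) f) b) (q : ℕ) (hq : 1 ≤ q) :
    (q * W + 1) ^ c * (((∏ x, wα x) * H580.hilbF (H580.Vw K wα)
        ((⨅ i ∈ A, H930.germ (z i) f).comap (rename Sum.inl)) (q * W)) * (q + 1) ^ v)
      ≤ (∏ j ∈ Finset.range c, d j) *
        ((v + 2 + c) ^ (Fintype.card α + Fintype.card β) *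
          ((q * W + 1) ^ Fintype.card α * (q + 1) ^ Fintype.card β)) := by
  classical
  set w : α ⊕ β → ℕ := Sum.elim wα (fun _ => W) with hw
  have hw0 : ∀ i, w i ≠ 0 := by
    rintro (i | i)
    · simpa [hw] using hwα i
    · simpa [hw] using hW
  have hV := H580.isFilt_Vw (k := K) w hw0
  set I := ⨅ i ∈ A, H930.germ (z i) f with hI
  have h1 := hilb_mul_le_w wα hwα W hW I b (IndepOver.iInf A _ b hb) (q * W) q
  have h2 : (q * W + 1) ^ c * H580.hilbF (H580.Vw K w) I (q * W + v * (q * W)) ≤
      (∏ j ∈ Finset.range c, d j) *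
        finrank K (H580.Vw K w (q * W + v * (q * W) + c * (q * W))) := by
    have h3 := hV.hilbF_primes A (fun j i => H930.germChain (z i) f j) c
      (fun j _ i hi => H930.germChain_isPrime (hf i hi) (hind i hi) j)
      (fun j _ i _ => H930.germChain_mono (z i) f (Nat.le_succ j))
      (fun j => if h : j < c then f ⟨j, h⟩ else 0)
      (fun j hj i _ => by
        rw [dif_pos hj]
        exact H930.mem_germChain_succ (z i) f ⟨j, hj⟩)
      (fun j hj i hi => by
        rw [dif_pos hj]
        exact H930.notMem_germChain (hf i hi) (hind i hi) ⟨j, hj⟩)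
      d hd1 (fun j hj => by
        rw [dif_pos hj]
        exact hfV ⟨j, hj⟩) (q * W + v * (q * W)) (q * W)
    have h4 : (⨅ i ∈ A, H930.germChain (z i) f c) = I := by
      rw [hI]
      exact iInf_congr fun i => iInf_congr fun _ => H930.germChain_top (z i) f le_rfl
    rw [h4] at h3
    exact h3
  have hWq : W ≤ q * W := Nat.le_mul_of_pos_left _ hq
  have h5 : (∏ x, wα x) * finrank K (H580.Vw K w (q * W + v * (q * W) + c * (q * W)))
      ≤ (v + 2 + c) ^ (Fintype.card α + Fintype.card β) *
          ((q * W + 1) ^ Fintype.card α * (q + 1) ^ Fintype.card β) := by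
    refine (Nat.mul_le_mul_left _ (H580.finrank_Vw_le w hw0 _)).trans ?_
    rw [Fintype.prod_sum_type, ← mul_assoc, ← Finset.prod_mul_distrib]
    have e1 : q * W + v * (q * W) + c * (q * W) = (v + 1 + c) * q * W := by ring
    have e2 : ∀ x : α, wα x * ((q * W + v * (q * W) + c * (q * W)) / w (Sum.inl x) + 1)
        ≤ (v + 2 + c) * (q * W + 1) := by
      intro x
      have e4 : w (Sum.inl x) = wα x := rfl
      rw [e4, mul_add, mul_one]
      have e5 := Nat.mul_div_le (q * W + v * (q * W) + c * (q * W)) (wα x)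
      have e6 := hwW x
      nlinarith
    have e3 : ∀ x : β, (q * W + v * (q * W) + c * (q * W)) / w (Sum.inr x) + 1
        ≤ (v + 2 + c) * (q + 1) := by
      intro x
      have : w (Sum.inr x) = W := rfl
      rw [this, e1, Nat.mul_div_cancel _ (Nat.pos_of_ne_zero hW)]
      nlinarith
    calc (∏ x : α, (wα x * ((q * W + v * (q * W) + c * (q * W)) / w (Sum.inl x) + 1))) *
          ∏ x : β, ((q * W + v * (q * W) + c * (q * W)) / w (Sum.inr x) + 1)
        ≤ (∏ _x : α, ((v + 2 + c) * (q * W + 1))) * ∏ _x : β, ((v + 2 + c) * (q + 1)) :=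
          Nat.mul_le_mul (Finset.prod_le_prod' fun x _ => e2 x)
            (Finset.prod_le_prod' fun x _ => e3 x)
      _ = _ := by
          rw [Finset.prod_const, Finset.prod_const, Finset.card_univ, Finset.card_univ, mul_pow,
            mul_pow, pow_add]
          ring
  calc (q * W + 1) ^ c * (((∏ x, wα x) * H580.hilbF (H580.Vw K wα) (I.comap (rename Sum.inl))
          (q * W)) * (q + 1) ^ v)
      = (∏ x, wα x) * ((q * W + 1) ^ c * (H580.hilbF (H580.Vw K wα) (I.comap (rename Sum.inl))
          (q * W) * (q + 1) ^ v)) := by ring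
    _ ≤ (∏ x, wα x) * ((q * W + 1) ^ c *
          H580.hilbF (H580.Vw K w) I (q * W + v * (q * W))) :=
        Nat.mul_le_mul_left _ (Nat.mul_le_mul_left _ h1)
    _ ≤ (∏ x, wα x) * ((∏ j ∈ Finset.range c, d j) *
        finrank K (H580.Vw K w (q * W + v * (q * W) + c * (q * W)))) := Nat.mul_le_mul_left _ h2
    _ = (∏ j ∈ Finset.range c, d j) * ((∏ x, wα x) *
        finrank K (H580.Vw K w (q * W + v * (q * W) + c * (q * W)))) := by ring
    _ ≤ _ := Nat.mul_le_mul_left _ h5

/-- **(D3) / [DOM] with weights on the base.**  Base variables `α` with weights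
`1 ≤ wα ≤ W`, vertical variables `β` of weight `W`. -/
theorem horiz_w {ι : Type*} (E : Set ι) (A : Finset ι)
    (z : ι → α ⊕ β → K) {c c₁ : ℕ} (hc : c₁ ≤ c) (hcN : c₁ ≤ Fintype.card α)
    (f : Fin c → MvPolynomial (α ⊕ β) K) (δ : ℕ → ℕ) (hδ : ∀ j < c₁, 1 ≤ δ j)
    (wα : α → ℕ) (hwα : ∀ i, 1 ≤ wα i)
    (W D : ℕ) (hW : 1 ≤ W) (hD : 1 ≤ D) (hwW : ∀ i, wα i ≤ W)
    (hf1 : ∀ j : Fin c, (j : ℕ) < c₁ → f j ∈ H580.Vw K (Sum.elim wα (fun _ => W)) (δ j))
    (hf2 : ∀ j : Fin c, c₁ ≤ (j : ℕ) → f j ∈ H580.Vw K (Sum.elim wα (fun _ => W)) (W * D))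
    (hf : ∀ i ∈ A, ∀ j, eval (z i) (f j) = 0)
    (hind : ∀ i ∈ A, LinearIndependent K (fun j => H930.grad (z i) (f j)))
    (l v : ℕ) (hv : v ≤ Fintype.card β)
    (hl : ∀ j b, pderiv (Sum.inr b) (f j) ∈ H580.Vw K (Sum.elim wα (fun _ => W)) l)
    (hgood : ∀ i ∈ A, ∀ F ∈ H580.Vw K (Sum.elim wα (fun _ => W))
        ((Fintype.card β - v + 1) * l),
      (∀ x ∈ E, eval (z x) F = 0) → F ∈ H930.germ (z i) f)
    (hr : ∀ x ∈ E, ((Matrix.of fun i b => pderiv (Sum.inr b) (f i) :
        Matrix (Fin c) β (MvPolynomial (α ⊕ β) K)).map (eval (z x))).rank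
          ≤ Fintype.card β - v)
    (q L : ℕ) (hq : 1 ≤ q)
    (hlow : ∀ A' ⊆ A, A.card ≤ Fintype.card β ^ v * A'.card →
      (∏ j ∈ Finset.range c₁, δ j) * (q * W) ^ (Fintype.card α - c₁)
        ≤ L * ((∏ x, wα x) *
          H580.hilbF (H580.Vw K wα) ((⨅ i ∈ A', H930.germ (z i) f).comap (rename Sum.inl)) (q * W)))
    (hbig : 2 ^ (Fintype.card α + c) * L * (v + 2 + c) ^ (Fintype.card α + Fintype.card β)
      * D ^ (c - c₁) ≤ q) :
    c + v ≤ c₁ + Fintype.card β := by
  classical
  set w : α ⊕ β → ℕ := Sum.elim wα (fun _ => W) with hw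
  have hW0 : W ≠ 0 := by omega
  have hwα0 : ∀ i, wα i ≠ 0 := fun i => by have := hwα i; omega
  have hw0 : ∀ i, w i ≠ 0 := by
    rintro (i | i)
    · simpa [hw] using hwα0 i
    · simpa [hw] using hW0
  have hV := H580.isFilt_Vw (k := K) w hw0
  have hex : ∀ i : ι, ∃ b : Fin v → β, i ∈ A → IndepOver (H930.germ (z i) f) b := by
    intro i
    by_cases hi : i ∈ A
    · obtain ⟨b, hb⟩ := exists_indep (z i) f (hf i hi) (hind i hi) E z (H580.Vw K w) hV l
        (Fintype.card β - v) v hl (hgood i hi) hr (by omega)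
      exact ⟨b, fun _ => hb⟩
    · have : Nonempty (Fin v ↪ β) := Function.Embedding.nonempty_of_card_le (by simpa using hv)
      exact ⟨fun t => this.some t, fun h => absurd h hi⟩
  choose B hB using hex
  obtain ⟨b, hbcard⟩ : ∃ b : Fin v → β, A.card ≤ Fintype.card β ^ v *
      (A.filter fun i => B i = b).card := by
    have hne : (Finset.univ : Finset (Fin v → β)).Nonempty := by
      have : Nonempty (Fin v ↪ β) := Function.Embedding.nonempty_of_card_le (by simpa using hv)
      exact ⟨fun t => this.some t, Finset.mem_univ _⟩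
    have h1 : A.card = ∑ b : Fin v → β, (A.filter fun i => B i = b).card :=
      Finset.card_eq_sum_card_fiberwise (f := B) (t := Finset.univ) (fun _ _ => by simp)
    obtain ⟨b, -, hb⟩ := Finset.exists_max_image Finset.univ
      (fun b : Fin v → β => (A.filter fun i => B i = b).card) hne
    refine ⟨b, ?_⟩
    rw [h1]
    calc ∑ b : Fin v → β, (A.filter fun i => B i = b).card
        ≤ ∑ _b : Fin v → β, (A.filter fun i => B i = b).card :=
          Finset.sum_le_sum fun b' hb' => hb b' hb'
      _ = _ := by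
          rw [Finset.sum_const, Finset.card_univ, Fintype.card_fun, Fintype.card_fin, smul_eq_mul]
  set A' := A.filter fun i => B i = b with hA'
  have hA'sub : A' ⊆ A := Finset.filter_subset _ _
  let d : ℕ → ℕ := fun j => if j < c₁ then δ j else W * D
  have hprod : ∏ j ∈ Finset.range c, d j = (∏ j ∈ Finset.range c₁, δ j) * (W * D) ^ (c - c₁) := by
    obtain ⟨m, rfl⟩ := Nat.exists_eq_add_of_le hc
    rw [Finset.prod_range_add, Nat.add_sub_cancel_left]
    congr 1
    · refine Finset.prod_congr rfl fun j hj => ?_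
      simp only [d]
      rw [if_pos (Finset.mem_range.1 hj)]
    · rw [Finset.prod_congr rfl (g := fun _ => W * D), Finset.prod_const, Finset.card_range]
      intro j _
      simp only [d]
      rw [if_neg (by omega)]
  have hup := hilb_upper_w A' z f d (fun j hj => ?_) wα W hW0 hwα0 hwW (fun j => ?_)
    (fun i hi => hf i (hA'sub hi)) (fun i hi => hind i (hA'sub hi)) b
    (fun i hi => ?_) q hq
  · rw [hprod] at hup
    have hlo := hlow A' hA'sub hbcard
    exact horiz_arith hc hcN hq hW (Nat.succ_le_of_lt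
      (Finset.prod_pos fun j hj => Nat.lt_of_lt_of_le Nat.zero_lt_one (hδ j (Finset.mem_range.1 hj))))
      hup hlo hbig
  · simp only [d]
    split_ifs with h
    · exact hδ j h
    · exact Nat.mul_pos hW hD
  · simp only [d]
    split_ifs with h
    · exact hf1 j h
    · exact hf2 j (by omega)
  · have h1 := hB i (hA'sub hi)
    rwa [(Finset.mem_filter.1 hi).2] at h1

/-- the ranks of the base points bound the Hilbert function in `horiz_w` -/
theorem rkF_le_hilb_w {ι : Type*} (A : Finset ι) (z : ι → α ⊕ β → K) {c : ℕ}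
    (f : Fin c → MvPolynomial (α ⊕ β) K) (hf : ∀ i ∈ A, ∀ j, eval (z i) (f j) = 0)
    (wα : α → ℕ) (hwα : ∀ i, wα i ≠ 0) (n : ℕ) [DecidableEq (α → K)] :
    H580.rkF (H580.Vw K wα) (A.image fun i => fun x => z i (Sum.inl x)) n
      ≤ H580.hilbF (H580.Vw K wα) ((⨅ i ∈ A, H930.germ (z i) f).comap (rename Sum.inl)) n := by
  refine (H580.isFilt_Vw (k := K) wα hwα).rkF_le_hilbF _ _ ?_ n
  intro F hF p hp
  obtain ⟨i, hi, rfl⟩ := Finset.mem_image.1 hp
  rw [Ideal.mem_comap] at hF
  simp only [Submodule.mem_iInf] at hF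
  have h1 := H930.eval_eq_zero_of_mem_germ (hf i hi) (hF i hi)
  rw [eval_rename] at h1
  exact h1

end HorizW

end Vale.Agent.P054.T2.H275
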