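import Vale.Agent.P054.T2.H275.Words
import Vale.Agent.P054.T2.H580.Filt

set_option linter.unusedSectionVars false

/-!
# P054 / T2: vertical variables independent over the horizontal ones (helper275)
-/

namespace Vale.Agent.P054.T2.H275

open MvPolynomial Module

section CoeffMem

variable {K : Type*} [Field K] [CharZero K] {A : Type*} [CommRing A] [Algebra K A] {τ : Type*}

theorem totalDegree_pderiv_le' (i : τ) (F : MvPolynomial τ A) :
    (pderiv i F).totalDegree ≤ F.totalDegree - 1 := by
  classical
  refine Finset.sup_le fun s hs => ?_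
  rw [MvPolynomial.mem_support_iff, coeff_pderiv] at hs
  have h1 : coeff (s + Finsupp.single i 1) F ≠ 0 := fun h => hs (by rw [h, zero_mul])
  have h2 := le_totalDegree (MvPolynomial.mem_support_iff.2 h1)
  have h3 : ((s + Finsupp.single i 1).sum fun _ e => e) = (s.sum fun _ e => e) + 1 := by
    rw [Finsupp.sum_add_index' (fun _ => rfl) (fun _ _ _ => rfl), Finsupp.sum_single_index rfl]
  omega

/-- an ideal closed under the partial derivatives contains the coefficients of its elements -/
theorem coeff_mem_of_pderiv_mem (K : Type*) [Field K] [CharZero K] [Algebra K A]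
    (J : Ideal (MvPolynomial τ A))
    (hJ : ∀ t, ∀ p ∈ J, pderiv t p ∈ J) (p : MvPolynomial τ A) (hp : p ∈ J) (μ : τ →₀ ℕ) :
    C (coeff μ p) ∈ J := by
  classical
  have key : ∀ d : ℕ, ∀ p ∈ J, p.totalDegree ≤ d → ∀ μ, C (coeff μ p) ∈ J := by
    intro d
    induction d with
    | zero =>
      intro p hp hd μ
      have hpC : p = C (coeff 0 p) := totalDegree_eq_zero_iff_eq_C.1 (by omega)
      by_cases hμ : μ = 0
      · subst hμ
        rwa [← hpC]
      · rw [hpC, coeff_C, if_neg (Ne.symm hμ), map_zero]
        exact J.zero_mem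
    | succ d ih =>
      intro p hp hd
      have hne : ∀ μ : τ →₀ ℕ, μ ≠ 0 → C (coeff μ p) ∈ J := by
        intro μ hμ
        obtain ⟨t, ht⟩ := Finsupp.ne_iff.1 hμ
        have hle : Finsupp.single t 1 ≤ μ := by
          rw [Finsupp.single_le_iff]
          exact Nat.one_le_iff_ne_zero.2 ht
        have h1 := ih (pderiv t p) (hJ t p hp)
          (by have := totalDegree_pderiv_le' t p; omega) (μ - Finsupp.single t 1)
        rw [coeff_pderiv, tsub_add_cancel_of_le hle] at h1
        set N : ℕ := (μ - Finsupp.single t 1 : τ →₀ ℕ) t + 1 with hN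
        have hN0 : ((N : ℕ) : K) ≠ 0 := by
          rw [hN, Nat.cast_ne_zero]
          omega
        have h2 : (((μ - Finsupp.single t 1 : τ →₀ ℕ) t : ℕ) : A) + 1 = algebraMap K A (N : K) := by
          rw [hN]
          push_cast
          simp
        rw [h2] at h1
        have h3 := J.mul_mem_left (C (algebraMap K A ((N : K)⁻¹))) h1
        rw [← C_mul, mul_comm (coeff μ p), ← mul_assoc, ← map_mul, inv_mul_cancel₀ hN0, map_one,
          one_mul] at h3
        exact h3
      intro μ
      by_cases hμ : μ = 0
      · subst hμ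
        have h1 : C (coeff 0 p) = p - ∑ m ∈ p.support.erase 0, monomial m (coeff m p) := by
          have h2 := p.support_sum_monomial_coeff
          by_cases h0 : (0 : τ →₀ ℕ) ∈ p.support
          · rw [← Finset.add_sum_erase _ _ h0] at h2
            rw [eq_sub_iff_add_eq]
            exact h2
          · rw [Finset.erase_eq_of_notMem h0, h2, sub_self]
            rw [notMem_support_iff.1 h0, map_zero]
        rw [h1]
        refine J.sub_mem hp (J.sum_mem fun m hm => ?_)
        have h3 : (monomial m (coeff m p) : MvPolynomial τ A) = C (coeff m p) * monomial m 1 := by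
          rw [C_mul_monomial, mul_one]
        rw [h3]
        exact J.mul_mem_right _ (hne m (Finset.ne_of_mem_erase hm))
      · exact hne μ hμ
  exact key _ p hp le_rfl μ

end CoeffMem

section Indep

variable {K : Type*} [Field K] {α β : Type*} {v : ℕ}

/-- substitution of the chosen vertical variables -/
noncomputable def Th (K : Type*) [Field K] {α β : Type*} {v : ℕ} (b : Fin v → β) :
    MvPolynomial (Fin v) (MvPolynomial α K) →+* MvPolynomial (α ⊕ β) K :=
  eval₂Hom (rename Sum.inl : MvPolynomial α K →ₐ[K] MvPolynomial (α ⊕ β) K).toRingHom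
    (fun t => X (Sum.inr (b t)))

theorem Th_C (b : Fin v → β) (a : MvPolynomial α K) :
    Th K b (C a) = rename Sum.inl a := by
  unfold Th
  rw [coe_eval₂Hom, eval₂_C]
  rfl

theorem Th_X (b : Fin v → β) (t : Fin v) :
    Th K (α := α) b (X t) = X (Sum.inr (b t)) := by
  unfold Th
  rw [coe_eval₂Hom, eval₂_X]

/-- the vertical variables `b` are independent over the horizontal ones modulo `I` -/
def IndepOver (I : Ideal (MvPolynomial (α ⊕ β) K)) (b : Fin v → β) : Prop :=
  ∀ p : MvPolynomial (Fin v) (MvPolynomial α K), Th K b p ∈ I →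
    ∀ μ, rename Sum.inl (coeff μ p) ∈ I

theorem IndepOver.iInf {ι : Type*} (G : Finset ι) (P : ι → Ideal (MvPolynomial (α ⊕ β) K))
    (b : Fin v → β) (h : ∀ i ∈ G, IndepOver (P i) b) : IndepOver (⨅ i ∈ G, P i) b := by
  intro p hp μ
  simp only [Submodule.mem_iInf] at hp ⊢
  exact fun i hi => h i hi p (hp i hi) μ

/-- independence from derivations along a homomorphism -/
theorem indepOver_ker [CharZero K] {L : Type*} [CommRing L] [Algebra K L]
    (φ : MvPolynomial (α ⊕ β) K →ₐ[K] L) (b : Fin v → β)
    (Δ : Fin v → MvPolynomial (α ⊕ β) K →ₗ[K] L)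
    (hΔ : ∀ t F G, Δ t (F * G) = φ F * Δ t G + φ G * Δ t F)
    (hker : ∀ t F, φ F = 0 → Δ t F = 0)
    (hα : ∀ t F, Δ t (rename Sum.inl F) = 0)
    (hβ : ∀ t t', Δ t (X (Sum.inr (b t'))) = if t = t' then 1 else 0) :
    IndepOver (RingHom.ker φ) b := by
  have hder : ∀ t (p : MvPolynomial (Fin v) (MvPolynomial α K)),
      Δ t (Th K b p) = φ (Th K b (pderiv t p)) := by
    intro t p
    induction p using MvPolynomial.induction_on with
    | C a => rw [Th_C, hα, pderiv_C, map_zero, map_zero]
    | add p q hp hq => rw [map_add, map_add, hp, hq, map_add, map_add, map_add]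
    | mul_X p t' hp =>
      rw [map_mul, hΔ, hp, Th_X, hβ, Derivation.leibniz, smul_eq_mul, smul_eq_mul, map_add,
        map_mul, map_mul, map_add, map_mul, map_mul, Th_X]
      congr 1
      by_cases h : t = t'
      · subst h
        rw [if_pos rfl, pderiv_X_self, map_one, map_one]
      · rw [if_neg h, pderiv_X_of_ne (Ne.symm h), map_zero, map_zero]
  intro p hp μ
  have := coeff_mem_of_pderiv_mem K ((RingHom.ker φ).comap (Th K b)) (fun t q hq => ?_) p hp μ
  · rw [Ideal.mem_comap, Th_C] at this
    exact this
  · rw [Ideal.mem_comap, RingHom.mem_ker] at hq ⊢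
    rw [← hder]
    exact hker t _ hq

/-- **products of horizontal polynomials and vertical monomials are independent** -/
theorem hilb_mul_le [Finite α] [Finite β] (W : ℕ) (hW : W ≠ 0)
    (I : Ideal (MvPolynomial (α ⊕ β) K)) (b : Fin v → β) (hI : IndepOver I b) (n j : ℕ) :
    H580.hilbF (restrictTotalDegree α K) (I.comap (rename Sum.inl)) n * (j + 1) ^ v
      ≤ H580.hilbF (H580.Vw K (Sum.elim (fun _ => 1) (fun _ => W))) I (n + v * (j * W)) := by
  classical
  set w : α ⊕ β → ℕ := Sum.elim (fun _ => 1) (fun _ => W) with hw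
  have hw0 : ∀ i, w i ≠ 0 := by
    rintro (i | i)
    · simp [hw]
    · simpa [hw] using hW
  have hV := H580.isFilt_Vw (k := K) w hw0
  have hVα := H580.isFilt_total (σ := α) (k := K)
  set Iα := I.comap (rename Sum.inl : MvPolynomial α K →ₐ[K] MvPolynomial (α ⊕ β) K) with hIα
  set Q := (restrictTotalDegree α K n).map (Ideal.Quotient.mkₐ K Iα).toLinearMap with hQ
  have hfQ : Module.Finite K Q := hVα.finite_map Iα n
  set m := finrank K Q with hm
  let bas : Basis (Fin m) K Q := Module.finBasis K Q
  have hlift : ∀ l, ∃ F ∈ restrictTotalDegree α K n, (Ideal.Quotient.mkₐ K Iα) F = (bas l : _) := by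
    intro l
    obtain ⟨F, hF, hF'⟩ := (bas l).2
    exact ⟨F, hF, hF'⟩
  choose F hF hF' using hlift
  -- the family
  let mon : (Fin v → Fin (j + 1)) → MvPolynomial (Fin v) (MvPolynomial α K) := fun μ =>
    monomial (Finsupp.equivFunOnFinite.symm fun t => (μ t : ℕ)) 1
  let el : Fin m × (Fin v → Fin (j + 1)) → MvPolynomial (α ⊕ β) K := fun x =>
    rename Sum.inl (F x.1) * Th K b (mon x.2)
  have hrename : ∀ G ∈ restrictTotalDegree α K n,
      (rename Sum.inl G : MvPolynomial (α ⊕ β) K) ∈ H580.Vw K w n := by
    intro G hG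
    rw [H580.mem_Vw]
    intro s hs
    obtain ⟨u, rfl, hu⟩ := coeff_rename_ne_zero _ _ _ (MvPolynomial.mem_support_iff.1 hs)
    have h1 := le_totalDegree (MvPolynomial.mem_support_iff.2 hu)
    have h2 : G.totalDegree ≤ n := (mem_restrictTotalDegree α n G).1 hG
    have h3 : Finsupp.weight w (Finsupp.mapDomain Sum.inl u) = u.sum fun _ e => e := by
      rw [Finsupp.weight_apply, Finsupp.sum_mapDomain_index (by simp) (by
        intros; rw [add_smul])]
      simp [hw]
    rw [h3]
    exact h1.trans h2
  have hmonV : ∀ μ, Th K (α := α) b (mon μ) ∈ H580.Vw K w (v * (j * W)) := by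
    intro μ
    have h1 : Th K (α := α) b (mon μ) = ∏ t, (X (Sum.inr (b t))) ^ (μ t : ℕ) := by
      change Th K b (monomial _ 1) = _
      rw [monomial_eq, map_one, one_mul, Finsupp.prod_fintype _ _ (by simp), map_prod]
      refine Finset.prod_congr rfl fun t _ => ?_
      rw [map_pow, Th_X]
      simp
    rw [h1]
    have h2 : ∀ s : Finset (Fin v), ∏ t ∈ s, (X (Sum.inr (b t)) : MvPolynomial (α ⊕ β) K) ^ (μ t : ℕ)
        ∈ H580.Vw K w (s.card * (j * W)) := by
      intro s
      induction s using Finset.induction_on with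
      | empty =>
        rw [Finset.prod_empty, Finset.card_empty, zero_mul]
        exact hV.one
      | insert a s ha ih =>
        rw [Finset.prod_insert ha, Finset.card_insert_of_notMem ha]
        have h3 : (X (Sum.inr (b a)) : MvPolynomial (α ⊕ β) K) ^ (μ a : ℕ) ∈ H580.Vw K w (j * W) := by
          have h4 := hV.pow_mem (H580.X_mem_Vw (k := K) w (Sum.inr (b a))) (μ a : ℕ)
          refine hV.mono ?_ h4
          have h5 : (μ a : ℕ) ≤ j := Nat.lt_succ_iff.1 (μ a).2
          exact Nat.mul_le_mul_right _ h5
        have := hV.mul h3 ih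
        rwa [show j * W + s.card * (j * W) = (s.card + 1) * (j * W) by ring] at this
    have := h2 Finset.univ
    rwa [Finset.card_univ, Fintype.card_fin] at this
  have hel : ∀ x, el x ∈ H580.Vw K w (n + v * (j * W)) := fun x =>
    hV.mul (hrename _ (hF x.1)) (hmonV x.2)
  set S := (H580.Vw K w (n + v * (j * W))).map (Ideal.Quotient.mkₐ K I).toLinearMap with hS
  have hfS : Module.Finite K S := hV.finite_map I _
  let g : Fin m × (Fin v → Fin (j + 1)) → S := fun x =>
    ⟨Ideal.Quotient.mk I (el x), el x, hel x, rfl⟩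
  have hli : LinearIndependent K g := by
    rw [Fintype.linearIndependent_iff]
    intro c hc
    -- the polynomial with these coefficients
    let p : MvPolynomial (Fin v) (MvPolynomial α K) :=
      ∑ μ, monomial (Finsupp.equivFunOnFinite.symm fun t => ((μ : Fin v → Fin (j + 1)) t : ℕ))
        (∑ l, c (l, μ) • F l)
    have hp : Th K b p ∈ I := by
      have h1 : ∑ x, c x • Ideal.Quotient.mk I (el x) = 0 := by
        have := congrArg (fun s : S => (s : MvPolynomial (α ⊕ β) K ⧸ I)) hc
        simpa [g] using! this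
      have h2 : Th K b p = ∑ x, c x • el x := by
        rw [Fintype.sum_prod_type_right]
        change Th K b (∑ μ, _) = _
        rw [map_sum]
        refine Finset.sum_congr rfl fun μ _ => ?_
        have h3 : (monomial (Finsupp.equivFunOnFinite.symm fun t => (μ t : ℕ)) (∑ l, c (l, μ) • F l) :
            MvPolynomial (Fin v) (MvPolynomial α K))
            = C (∑ l, c (l, μ) • F l) * mon μ := by
          change _ = C _ * monomial _ 1
          rw [C_mul_monomial, mul_one]
        rw [h3, map_mul, Th_C, map_sum, Finset.sum_mul]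
        refine Finset.sum_congr rfl fun l _ => ?_
        rw [map_smul, smul_mul_assoc]
      rw [h2, ← Ideal.Quotient.eq_zero_iff_mem, map_sum, ← h1]
      refine Finset.sum_congr rfl fun x _ => ?_
      exact map_smul (Ideal.Quotient.mkₐ K I) (c x) (el x)
    have hcoef : ∀ μ : Fin v → Fin (j + 1),
        coeff (Finsupp.equivFunOnFinite.symm fun t => (μ t : ℕ)) p = ∑ l, c (l, μ) • F l := by
      intro μ
      change coeff _ (∑ μ', _) = _
      rw [coeff_sum, Finset.sum_eq_single μ]
      · rw [coeff_monomial, if_pos rfl]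
      · intro μ' _ hne
        rw [coeff_monomial, if_neg]
        intro h
        apply hne
        have h1 := Finsupp.equivFunOnFinite.symm.injective h
        funext t
        exact Fin.ext (congrFun h1 t)
      · intro h
        exact absurd (Finset.mem_univ _) h
    rintro ⟨l, μ⟩
    have h1 := hI p hp (Finsupp.equivFunOnFinite.symm fun t => (μ t : ℕ))
    rw [hcoef] at h1
    have h2 : ∑ l, c (l, μ) • (bas l) = 0 := by
      apply Subtype.ext
      have h3 : (Ideal.Quotient.mkₐ K Iα) (∑ l, c (l, μ) • F l) = 0 := by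
        rw [Ideal.Quotient.mkₐ_eq_mk, Ideal.Quotient.eq_zero_iff_mem]
        exact h1
      rw [map_sum] at h3
      rw [Submodule.coe_sum, Submodule.coe_zero, ← h3]
      refine Finset.sum_congr rfl fun l _ => ?_
      rw [Submodule.coe_smul, map_smul, hF']
    exact Fintype.linearIndependent_iff.1 bas.linearIndependent (fun l => c (l, μ)) h2 l
  have h1 := hli.fintype_card_le_finrank
  rw [Fintype.card_prod, Fintype.card_fin, Fintype.card_fun, Fintype.card_fin, Fintype.card_fin] at h1
  exact h1

end Indep

end Vale.Agent.P054.T2.H275
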