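import Vale.Agent.P054.T2.H275.Indep
import Vale.Agent.P054.T2.H930.Tan1
import Vale.Agent.P054.T2.H930.Tan2

set_option linter.unusedSectionVars false

/-!
# P054 / T2: vertical directions of a germ give independent vertical variables (helper275)
-/

namespace Vale.Agent.P054.T2.H275

open MvPolynomial Module

section Vert

variable {K : Type*} [Field K] [CharZero K] {α β : Type*} [Fintype α] [DecidableEq α]
  [Fintype β] [DecidableEq β]

theorem pderiv_inr_rename (b : β) (G : MvPolynomial α K) :
    pderiv (Sum.inr b) (rename Sum.inl G : MvPolynomial (α ⊕ β) K) = 0 := by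
  classical
  induction G using MvPolynomial.induction_on with
  | C a => rw [rename_C, pderiv_C]
  | add p q hp hq => rw [map_add, map_add, hp, hq, add_zero]
  | mul_X p i hp =>
    rw [map_mul, rename_X, Derivation.leibniz, hp, pderiv_X_of_ne (by simp), smul_zero, smul_zero,
      add_zero]

theorem pderiv_inl_rename (a : α) (G : MvPolynomial α K) :
    pderiv (Sum.inl a) (rename Sum.inl G : MvPolynomial (α ⊕ β) K) = rename Sum.inl (pderiv a G) := by
  classical
  induction G using MvPolynomial.induction_on with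
  | C x => rw [rename_C, pderiv_C, pderiv_C, map_zero]
  | add p q hp hq => rw [map_add, map_add, hp, hq, map_add, map_add]
  | mul_X p i hp =>
    rw [map_mul, rename_X, Derivation.leibniz, hp, Derivation.leibniz, map_add]
    simp only [smul_eq_mul, map_mul, rename_X]
    congr 1
    by_cases h : i = a
    · subst h
      rw [pderiv_X_self, pderiv_X_self, map_one]
    · rw [pderiv_X_of_ne h, pderiv_X_of_ne (by simpa using h), map_zero]

/-- linear algebra: a `v`-dimensional space of vectors has a coordinate `v × v` identity minor -/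
theorem exists_dual_minor {L : Type*} [Field L] {m : Type*} (M : Matrix m β L) (v : ℕ)
    [Fintype m] (h : M.rank + v ≤ Fintype.card β) :
    ∃ (b : Fin v → β) (τ : Fin v → β → L), (∀ t i, ∑ x, M i x * τ t x = 0) ∧
      ∀ t t', τ t (b t') = if t = t' then 1 else 0 := by
  classical
  have hker : v ≤ finrank L (LinearMap.ker M.mulVecLin) := by
    have h1 := LinearMap.finrank_range_add_finrank_ker M.mulVecLin
    rw [Module.finrank_fintype_fun_eq_card] at h1
    have h2 : finrank L (LinearMap.range M.mulVecLin) = M.rank := rfl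
    omega
  let u : Fin v → β → L := fun t =>
    ((Module.finBasis L (LinearMap.ker M.mulVecLin)) (Fin.castLE hker t) : β → L)
  have hli : LinearIndependent L u := by
    have h1 := (Module.finBasis L (LinearMap.ker M.mulVecLin)).linearIndependent
    have h2 := h1.comp _ (Fin.castLE_injective hker)
    exact h2.map' (Submodule.subtype _) (Submodule.ker_subtype _)
  have hmem : ∀ t, u t ∈ LinearMap.ker M.mulVecLin := by
    intro t
    exact ((Module.finBasis L (LinearMap.ker M.mulVecLin)) (Fin.castLE hker t)).2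
  let T : Matrix (Fin v) β L := Matrix.of u
  have hT : T.rank = v := by
    have h1 : LinearIndependent L T.row := hli
    rw [h1.rank_matrix, Fintype.card_fin]
  obtain ⟨r, b, hdet⟩ := H930.exists_minor T v hT.ge
  set N := T.submatrix r b with hN
  have hNu : IsUnit N.det := isUnit_iff_ne_zero.2 hdet
  refine ⟨b, fun t x => ∑ s, N⁻¹ t s * u (r s) x, ?_, ?_⟩
  · intro t i
    have h1 : ∀ s, ∑ x, M i x * u (r s) x = 0 := by
      intro s
      have h2 := hmem (r s)
      rw [LinearMap.mem_ker] at h2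
      exact congrFun h2 i
    have h3 : ∑ x, M i x * ∑ s, N⁻¹ t s * u (r s) x = ∑ s, N⁻¹ t s * ∑ x, M i x * u (r s) x := by
      simp_rw [Finset.mul_sum]
      rw [Finset.sum_comm]
      refine Finset.sum_congr rfl fun s _ => Finset.sum_congr rfl fun x _ => by ring
    rw [h3]
    exact Finset.sum_eq_zero fun s _ => by rw [h1, mul_zero]
  · intro t t'
    have h1 := congrFun (congrFun (Matrix.nonsing_inv_mul N hNu) t) t'
    rw [Matrix.mul_apply, Matrix.one_apply] at h1
    exact h1

/-- **vertical directions over the fraction field give independent vertical variables** -/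
theorem exists_indep_of_rank {c : ℕ} (p : α ⊕ β → K) (f : Fin c → MvPolynomial (α ⊕ β) K)
    (hf : ∀ i, eval p (f i) = 0) (hind : LinearIndependent K (fun i => H930.grad p (f i)))
    {e : ℕ} (he : e + c = Fintype.card (α ⊕ β))
    (φ : MvPolynomial (α ⊕ β) K →ₐ[K] MvPowerSeries (Fin e) K)
    (a : Fin e → α ⊕ β → K) (ζ : Fin e → MvPolynomial (α ⊕ β) K)
    (hζ : ∀ l, ζ l = ∑ j, C (a l j) * (X j - C (p j)))
    (hA : ∀ A : MvPolynomial (Fin e) K, φ (aeval ζ A) = (A : MvPowerSeries (Fin e) K))
    (hφf : ∀ i, φ (f i) = 0)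
    (hφJ : ∀ n F, φ F ∈ (H930.ordI n : Ideal (MvPowerSeries (Fin e) K)) ↔ F ∈ H930.J p f n)
    {L : Type*} [Field L] [Algebra K L] (ι : MvPowerSeries (Fin e) K →ₐ[K] L)
    (hι : Function.Injective ι) (v : ℕ)
    (hr : ((Matrix.of fun i b => pderiv (Sum.inr b) (f i) :
        Matrix (Fin c) β (MvPolynomial (α ⊕ β) K)).map (fun F => ι (φ F))).rank + v
      ≤ Fintype.card β) :
    ∃ b : Fin v → β, IndepOver (H930.germ p f) b := by
  classical
  obtain ⟨b, τ, hτ0, hτb⟩ := exists_dual_minor _ v hr
  have hφ0 : ∀ G, MvPowerSeries.constantCoeff (φ G) = eval p G := by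
    intro G
    have h1 : φ (G - C (eval p G)) ∈ (H930.ordI 1 : Ideal (MvPowerSeries (Fin e) K)) := by
      rw [hφJ, H930.J_one p f hf]
      change eval p (G - C (eval p G)) = 0
      simp
    have h2 := H930.mem_ordI'.1 h1 0 (by simp)
    rw [MvPowerSeries.coeff_zero_eq_constantCoeff_apply, map_sub, map_sub, sub_eq_zero] at h2
    rw [h2]
    have h3 : φ (C (eval p G)) = MvPowerSeries.C (eval p G) := φ.commutes _
    rw [h3, MvPowerSeries.constantCoeff_C]
  have ha : ∀ l, φ (∑ j, C (a l j) * (X j - C (p j))) = MvPowerSeries.X l := by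
    intro l
    rw [← hζ l]
    have := hA (X l)
    rwa [aeval_X, MvPolynomial.coe_X] at this
  have htan : ∀ t, ∃ γ : Fin e → L, ∀ j, (Sum.elim (fun _ => (0 : L)) (τ t)) j
      = ∑ l, γ l * ι (MvPowerSeries.pderiv K l (φ (X j))) := by
    intro t
    refine H930.tangent_eq p f he hind φ hφ0 hφf a ha (ι : MvPowerSeries (Fin e) K →+* L) hι
      (Sum.elim (fun _ => (0 : L)) (τ t)) ?_
    intro i
    rw [Fintype.sum_sum_type]
    simp only [Sum.elim_inl, Sum.elim_inr, mul_zero, Finset.sum_const_zero, zero_add]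
    exact hτ0 t i
  choose γ hγ using htan
  let φL : MvPolynomial (α ⊕ β) K →ₐ[K] L := ι.comp φ
  let Δ : Fin v → MvPolynomial (α ⊕ β) K →ₗ[K] L := fun t =>
    ∑ l, (γ t l) • (ι.toLinearMap.comp ((MvPowerSeries.pderiv K l).toLinearMap.comp φ.toLinearMap))
  have hΔ : ∀ t F, Δ t F = ∑ l, γ t l * ι (MvPowerSeries.pderiv K l (φ F)) := by
    intro t F
    simp [Δ, LinearMap.sum_apply]
  have hder : ∀ t F G, Δ t (F * G) = φL F * Δ t G + φL G * Δ t F := by
    intro t F G
    rw [hΔ, hΔ, hΔ, Finset.mul_sum, Finset.mul_sum, ← Finset.sum_add_distrib]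
    refine Finset.sum_congr rfl fun l _ => ?_
    rw [map_mul, Derivation.leibniz, map_add, smul_eq_mul, smul_eq_mul, map_mul, map_mul]
    change γ t l * (ι (φ F) * _ + ι (φ G) * _) = ι (φ F) * _ + ι (φ G) * _
    ring
  have hX : ∀ t j, Δ t (X j) = Sum.elim (fun _ => (0 : L)) (τ t) j := by
    intro t j
    rw [hΔ, hγ]
  have hgerm : H930.germ p f = RingHom.ker φL := by
    rw [H930.germ_eq_ker φ hφJ]
    ext F
    constructor
    · intro h
      have h' : φ F = 0 := h
      change ι (φ F) = 0
      rw [h', map_zero]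
    · intro h
      have h' : ι (φ F) = 0 := h
      change φ F = 0
      exact hι (by rw [h', map_zero])
  refine ⟨b, ?_⟩
  rw [hgerm]
  refine indepOver_ker φL b Δ hder ?_ ?_ ?_
  · intro t F hF
    have h' : ι (φ F) = 0 := hF
    have h'' : φ F = 0 := hι (by rw [h', map_zero])
    rw [hΔ]
    exact Finset.sum_eq_zero fun l _ => by rw [h'', map_zero, map_zero, mul_zero]
  · intro t F
    have h1 := IsDer.eq_sum (φ := φL) (Δ := Δ t) (hder t) (rename Sum.inl F)
    rw [h1, Fintype.sum_sum_type]
    have h2 : ∀ x, φL (pderiv (Sum.inl x) (rename Sum.inl F)) * Δ t (X (Sum.inl x)) = 0 := by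
      intro x
      rw [hX, Sum.elim_inl, mul_zero]
    have h3 : ∀ x, φL (pderiv (Sum.inr x) (rename Sum.inl F)) * Δ t (X (Sum.inr x)) = 0 := by
      intro x
      rw [pderiv_inr_rename, map_zero, zero_mul]
    rw [Finset.sum_eq_zero fun x _ => h2 x, Finset.sum_eq_zero fun x _ => h3 x, add_zero]
  · intro t t'
    rw [hX, Sum.elim_inr, hτb]

/-- the same from the ranks at the points of a set on which the germ is good -/
theorem exists_indep {c : ℕ} (p : α ⊕ β → K) (f : Fin c → MvPolynomial (α ⊕ β) K)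
    (hf : ∀ i, eval p (f i) = 0) (hind : LinearIndependent K (fun i => H930.grad p (f i)))
    {ι : Type*} (E : Set ι) (z : ι → α ⊕ β → K) (V : ℕ → Submodule K (MvPolynomial (α ⊕ β) K))
    (hV : H580.IsFilt V) (δ ρ v : ℕ) (hM : ∀ i b, pderiv (Sum.inr b) (f i) ∈ V δ)
    (hgood : ∀ F ∈ V ((ρ + 1) * δ), (∀ e ∈ E, eval (z e) F = 0) → F ∈ H930.germ p f)
    (hr : ∀ e ∈ E, ((Matrix.of fun i b => pderiv (Sum.inr b) (f i) :
        Matrix (Fin c) β (MvPolynomial (α ⊕ β) K)).map (eval (z e))).rank ≤ ρ)
    (hv : ρ + v ≤ Fintype.card β) :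
    ∃ b : Fin v → β, IndepOver (H930.germ p f) b := by
  obtain ⟨e, he, φ, a, ζ, hζ, hA, hφf, hφJ, -⟩ := H930.exists_germ p f hf hind
  have hdom : IsDomain (MvPowerSeries (Fin e) K) := NoZeroDivisors.to_isDomain _
  let L := FractionRing (MvPowerSeries (Fin e) K)
  let ιL : MvPowerSeries (Fin e) K →ₐ[K] L := IsScalarTower.toAlgHom K _ _
  have hιL : Function.Injective ιL := IsFractionRing.injective (MvPowerSeries (Fin e) K) L
  refine exists_indep_of_rank p f hf hind he φ a ζ hζ hA hφf hφJ ιL hιL v ?_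
  refine le_trans (Nat.add_le_add_right ?_ v) hv
  have := H930.rank_le_of_points (fun i => (eval (z i) : MvPolynomial (α ⊕ β) K →+* K)) E
    ((ιL : MvPowerSeries (Fin e) K →+* L).comp (φ : MvPolynomial (α ⊕ β) K →+* _)) V hV.one
    (fun _ _ _ _ hx hy => hV.mul hx hy)
    (Matrix.of fun i b => pderiv (Sum.inr b) (f i) : Matrix (Fin c) β (MvPolynomial (α ⊕ β) K))
    δ ρ (fun i b => hM i b) (fun F hF hFE => ?_) hr
  · exact this
  · have h1 := hgood F hF hFE
    rw [H930.germ_eq_ker φ hφJ] at h1
    have h2 : φ F = 0 := h1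
    change ιL (φ F) = 0
    rw [h2, map_zero]

end Vert

end Vale.Agent.P054.T2.H275
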