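import Vale.Agent.P054.T2.H275.Horiz2

set_option linter.unusedSectionVars false

/-!
# P054 / T2: full vertical rank means independent vertical gradients (helper275)
-/

namespace Vale.Agent.P054.T2.H275

open MvPolynomial Module

/-- a matrix whose first `c₁` rows vanish and whose rank is at least `c - c₁` has independent
last rows -/
theorem linearIndependent_last {K : Type*} [Field K] {β : Type*} [Fintype β] {c c₁ : ℕ}
    (hc : c₁ ≤ c) (M : Matrix (Fin c) β K) (h0 : ∀ j : Fin c, (j : ℕ) < c₁ → M j = 0)
    (hr : c - c₁ ≤ M.rank) :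
    LinearIndependent K (fun j : {j : Fin c // c₁ ≤ (j : ℕ)} => M j.1) := by
  classical
  have hcard : Fintype.card {j : Fin c // c₁ ≤ (j : ℕ)} = c - c₁ := by
    rw [Fintype.card_subtype]
    have h1 : (Finset.univ.filter fun j : Fin c => c₁ ≤ (j : ℕ)) =
        (Finset.univ : Finset (Fin (c - c₁))).image
          (fun j : Fin (c - c₁) => (⟨c₁ + (j : ℕ), by have := j.2; omega⟩ : Fin c)) := by
      ext j
      constructor
      · intro hj
        rw [Finset.mem_filter] at hj
        rw [Finset.mem_image]
        refine ⟨⟨j - c₁, by have := j.2; omega⟩, Finset.mem_univ _, ?_⟩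
        apply Fin.ext
        change c₁ + ((j : ℕ) - c₁) = j
        have := hj.2
        omega
      · intro hj
        obtain ⟨i, -, rfl⟩ := Finset.mem_image.1 hj
        rw [Finset.mem_filter]
        exact ⟨Finset.mem_univ _, Nat.le_add_right _ _⟩
    rw [h1, Finset.card_image_of_injective, Finset.card_univ, Fintype.card_fin]
    intro a b hab
    have := congrArg Fin.val hab
    apply Fin.ext
    change c₁ + (a : ℕ) = c₁ + (b : ℕ) at this
    omega
  have hspan : Submodule.span K (Set.range M.row) ≤
      Submodule.span K (Set.range (fun j : {j : Fin c // c₁ ≤ (j : ℕ)} => M j.1)) := by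
    rw [Submodule.span_le]
    rintro _ ⟨j, rfl⟩
    by_cases hj : c₁ ≤ (j : ℕ)
    · exact Submodule.subset_span ⟨⟨j, hj⟩, rfl⟩
    · have : M.row j = 0 := h0 j (by omega)
      rw [this]
      exact Submodule.zero_mem _
  rw [linearIndependent_iff_card_le_finrank_span, hcard]
  rw [Matrix.rank_eq_finrank_span_row] at hr
  exact hr.trans (Submodule.finrank_mono hspan)

variable {K : Type*} [Field K] {α β : Type*} [Fintype α] [DecidableEq α]
  [Fintype β] [DecidableEq β]

/-- vertical gradients of the last equations are independent -/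
theorem vert_indep {c c₁ : ℕ} (hc : c₁ ≤ c) (z : α ⊕ β → K)
    (f : Fin c → MvPolynomial (α ⊕ β) K)
    (h0 : ∀ j : Fin c, (j : ℕ) < c₁ → ∀ b, pderiv (Sum.inr b) (f j) = 0) (v : ℕ)
    (hr : Fintype.card β - v ≤ ((Matrix.of fun i b => pderiv (Sum.inr b) (f i) :
        Matrix (Fin c) β (MvPolynomial (α ⊕ β) K)).map (eval z)).rank)
    (hcv : c + v ≤ c₁ + Fintype.card β) :
    LinearIndependent K (fun j : {j : Fin c // c₁ ≤ (j : ℕ)} => fun b =>
      eval z (pderiv (Sum.inr b) (f j.1))) := by
  refine linearIndependent_last hc ((Matrix.of fun i b => pderiv (Sum.inr b) (f i) :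
        Matrix (Fin c) β (MvPolynomial (α ⊕ β) K)).map (eval z)) ?_ (by omega)
  intro j hj
  funext b
  rw [Matrix.map_apply, Matrix.of_apply, h0 j hj b, map_zero]
  rfl

/-- the vertical rank is at most the number of vertical equations -/
theorem vert_rank_le {c c₁ : ℕ} (hc : c₁ ≤ c) (z : α ⊕ β → K)
    (f : Fin c → MvPolynomial (α ⊕ β) K)
    (h0 : ∀ j : Fin c, (j : ℕ) < c₁ → ∀ b, pderiv (Sum.inr b) (f j) = 0) :
    ((Matrix.of fun i b => pderiv (Sum.inr b) (f i) :
        Matrix (Fin c) β (MvPolynomial (α ⊕ β) K)).map (eval z)).rank ≤ c - c₁ := by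
  classical
  set M := ((Matrix.of fun i b => pderiv (Sum.inr b) (f i) :
        Matrix (Fin c) β (MvPolynomial (α ⊕ β) K)).map (eval z)) with hM
  rw [Matrix.rank_eq_finrank_span_row]
  have hsub : Submodule.span K (Set.range M.row) ≤
      Submodule.span K (Set.range (fun j : Fin (c - c₁) => M ⟨c₁ + (j : ℕ), by have := j.2; omega⟩)) := by
    rw [Submodule.span_le]
    rintro _ ⟨j, rfl⟩
    by_cases hj : c₁ ≤ (j : ℕ)
    · refine Submodule.subset_span ⟨⟨j - c₁, by have := j.2; omega⟩, ?_⟩
      change M _ = M j
      congr 1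
      apply Fin.ext
      change c₁ + ((j : ℕ) - c₁) = j
      omega
    · have : M.row j = 0 := by
        funext b
        change M j b = 0
        rw [hM, Matrix.map_apply, Matrix.of_apply, h0 j (by omega) b, map_zero]
      rw [this]
      exact Submodule.zero_mem _
  refine (Submodule.finrank_mono hsub).trans ?_
  exact (finrank_range_le_card _).trans (by simp)

end Vale.Agent.P054.T2.H275
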