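import Vale.Agent.P054.T2.H275.Germ
import Vale.Agent.P054.T2.H930.Germ3

set_option linter.unusedSectionVars false

/-!
# P054 / T2: tangential words and the ideals `J p f n` (helper275)

For `f : Fin c → K[X]` vanishing at `p` with independent gradients there are `e = N - c`
derivations `E_m` of `K[X]` with `E_m f_i = 0`, raising degrees by at most `∑ (deg f_i - 1)`, such
that `F ∈ J p f n` iff all words of length `< n` in the `E_m` kill `F` at `p`.
-/

namespace Vale.Agent.P054.T2.H275

open MvPowerSeries

section Degree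

variable {K : Type*} [Field K] {ι : Type*}

theorem totalDegree_det_le {n : Type*} [Fintype n] [DecidableEq n]
    (M : Matrix n n (MvPolynomial ι K)) (d : n → ℕ)
    (h : ∀ a b, (M a b).totalDegree ≤ d a) : M.det.totalDegree ≤ ∑ a, d a := by
  rw [Matrix.det_apply']
  refine (MvPolynomial.totalDegree_finsetSum _ _).trans (Finset.sup_le fun s _ => ?_)
  refine (MvPolynomial.totalDegree_mul _ _).trans ?_
  have h1 : (((Equiv.Perm.sign s : ℤˣ) : ℤ) : MvPolynomial ι K).totalDegree = 0 := by
    rw [← map_intCast (MvPolynomial.C : K →+* MvPolynomial ι K)]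
    exact MvPolynomial.totalDegree_C _
  rw [h1, zero_add]
  refine (MvPolynomial.totalDegree_finsetProd _ _).trans ?_
  rw [← Equiv.sum_comp s d]
  exact Finset.sum_le_sum fun i _ => h _ _

end Degree

section Cof

variable {K : Type*} [Field K] {ι : Type*} [Fintype ι] [DecidableEq ι]
  {κ τ : Type*} [Fintype κ] [DecidableEq κ] [Fintype τ] [DecidableEq τ]

theorem totalDegree_pderiv_le (i : ι) (F : MvPolynomial ι K) :
    (MvPolynomial.pderiv i F).totalDegree ≤ F.totalDegree - 1 := by
  classical
  refine Finset.sup_le fun s hs => ?_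
  rw [MvPolynomial.mem_support_iff, MvPolynomial.coeff_pderiv] at hs
  have h1 : MvPolynomial.coeff (s + Finsupp.single i 1) F ≠ 0 := fun h => hs (by rw [h, zero_mul])
  have h2 := MvPolynomial.le_totalDegree (MvPolynomial.mem_support_iff.2 h1)
  have h3 : ((s + Finsupp.single i 1).sum fun _ e => e) = (s.sum fun _ e => e) + 1 := by
    rw [Finsupp.sum_add_index' (fun _ => rfl) (fun _ _ _ => rfl), Finsupp.sum_single_index rfl]
  omega

theorem totalDegree_adjugate_le (e : κ ⊕ τ ≃ ι) (g : κ ⊕ τ → MvPolynomial ι K) (d : κ → ℕ)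
    (hd : ∀ k, (g (Sum.inl k)).totalDegree ≤ d k) (hl : ∀ m, (g (Sum.inr m)).totalDegree ≤ 1)
    (b : κ ⊕ τ) (m : τ) :
    ((jac e g).adjugate b (Sum.inr m)).totalDegree ≤ ∑ k, (d k - 1) := by
  rw [Matrix.adjugate_apply]
  refine (totalDegree_det_le _ (Sum.elim (fun k => d k - 1) (fun _ => 0)) ?_).trans ?_
  · intro a b'
    by_cases ha : a = Sum.inr m
    · subst ha
      rw [Matrix.updateRow_self, Sum.elim_inr]
      by_cases hb : b' = b
      · subst hb
        rw [Pi.single_eq_same, MvPolynomial.totalDegree_one]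
      · rw [Pi.single_eq_of_ne hb, MvPolynomial.totalDegree_zero]
    · rw [Matrix.updateRow_ne ha, jac_apply]
      rcases a with k | m'
      · exact (totalDegree_pderiv_le _ _).trans (Nat.sub_le_sub_right (hd k) 1)
      · have := totalDegree_pderiv_le (e b') (g (Sum.inr m'))
        have := hl m'
        simp only [Sum.elim_inr]
        omega
  · rw [Fintype.sum_sum_type]
    simp

theorem totalDegree_cof_le (e : κ ⊕ τ ≃ ι) (g : κ ⊕ τ → MvPolynomial ι K) (d : κ → ℕ)
    (hd : ∀ k, (g (Sum.inl k)).totalDegree ≤ d k) (hl : ∀ m, (g (Sum.inr m)).totalDegree ≤ 1)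
    (m : τ) (F : MvPolynomial ι K) :
    (cof e g m F).totalDegree ≤ F.totalDegree + ∑ k, (d k - 1) := by
  rw [cof_apply]
  refine (MvPolynomial.totalDegree_finsetSum _ _).trans (Finset.sup_le fun b _ => ?_)
  refine (MvPolynomial.totalDegree_mul _ _).trans ?_
  have h1 := totalDegree_adjugate_le e g d hd hl b m
  have h2 := totalDegree_pderiv_le (e b) F
  omega

end Cof

section Words

variable {K : Type*} [Field K] {σ : Type*} [Fintype σ] [DecidableEq σ]

/-- iterated derivations along a word -/
noncomputable def wd {τ : Type*} (E : τ → Derivation K (MvPolynomial σ K) (MvPolynomial σ K))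
    (w : List τ) (F : MvPolynomial σ K) : MvPolynomial σ K :=
  w.foldr (fun m G => E m G) F

theorem wd_nil {τ : Type*} (E : τ → Derivation K (MvPolynomial σ K) (MvPolynomial σ K))
    (F : MvPolynomial σ K) : wd E [] F = F := rfl

theorem wd_cons {τ : Type*} (E : τ → Derivation K (MvPolynomial σ K) (MvPolynomial σ K))
    (m : τ) (w : List τ) (F : MvPolynomial σ K) : wd E (m :: w) F = E m (wd E w F) := rfl

theorem wd_append {τ : Type*} (E : τ → Derivation K (MvPolynomial σ K) (MvPolynomial σ K))
    (w w' : List τ) (F : MvPolynomial σ K) : wd E (w ++ w') F = wd E w (wd E w' F) := by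
  unfold wd
  rw [List.foldr_append]

theorem totalDegree_wd_le {τ : Type*}
    (E : τ → Derivation K (MvPolynomial σ K) (MvPolynomial σ K)) (δ : ℕ)
    (hE : ∀ m F, (E m F).totalDegree ≤ F.totalDegree + δ) (w : List τ) (F : MvPolynomial σ K) :
    (wd E w F).totalDegree ≤ F.totalDegree + w.length * δ := by
  induction w with
  | nil => simp [wd_nil]
  | cons m w ih =>
    rw [wd_cons, List.length_cons]
    have := hE m (wd E w F)
    nlinarith

/-- easy direction: elements of `J p f n` are killed by words of length `< n` -/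
theorem wd_mem_J {c : ℕ} {p : σ → K} {f : Fin c → MvPolynomial σ K} {τ : Type*}
    (E : τ → Derivation K (MvPolynomial σ K) (MvPolynomial σ K)) (w : List τ) (n : ℕ)
    (hE : ∀ m i, E m (f i) ∈ H930.J p f (n + w.length)) {F : MvPolynomial σ K}
    (hF : F ∈ H930.J p f (n + w.length)) : wd E w F ∈ H930.J p f n := by
  induction w generalizing n with
  | nil => simpa using! hF
  | cons m w ih =>
    rw [wd_cons]
    rw [List.length_cons] at hE hF
    refine H930.derivation_mem_J (E m) (fun i => H930.J_anti p f (by omega) (hE m i)) (ih (n + 1) ?_ ?_)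
    · intro m' i
      rw [show n + 1 + w.length = n + (w.length + 1) by omega]
      exact hE m' i
    · rwa [show n + 1 + w.length = n + (w.length + 1) by omega]

variable [CharZero K]

/-- hard direction, for the cofactor derivations -/
theorem mem_J_of_words {c e : ℕ} {p : σ → K} {f : Fin c → MvPolynomial σ K}
    (hf : ∀ i, MvPolynomial.eval p (f i) = 0)
    (hind : LinearIndependent K (fun i => H930.grad p (f i)))
    (eqv : Fin c ⊕ Fin e ≃ σ) (l : Fin e → MvPolynomial σ K)
    (hp : MvPolynomial.eval p (jac eqv (Sum.elim f l)).det ≠ 0)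
    (n : ℕ) (F : MvPolynomial σ K)
    (h : ∀ w : List (Fin e), w.length < n →
      MvPolynomial.eval p (wd (cof eqv (Sum.elim f l)) w F) = 0) :
    F ∈ H930.J p f n := by
  obtain ⟨e', he', φ, a, ζ, -, -, hφf, hφJ, -⟩ := H930.exists_germ p f hf hind
  rw [← hφJ]
  have hconst : ∀ G : MvPolynomial σ K, MvPolynomial.eval p G = 0 → constantCoeff (φ G) = 0 := by
    intro G hG
    have h1 : φ G ∈ (H930.ordI 1 : Ideal (MvPowerSeries (Fin e') K)) := by
      rw [hφJ, H930.J_one p f hf]
      exact hG
    have := H930.mem_ordI'.1 h1 0 (by simp)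
    rwa [coeff_zero_eq_constantCoeff_apply] at this
  have hunit : IsUnit (φ (jac eqv (Sum.elim f l)).det) := by
    rw [MvPowerSeries.isUnit_iff_constantCoeff]
    have h1 := hconst ((jac eqv (Sum.elim f l)).det
      - MvPolynomial.C (MvPolynomial.eval p (jac eqv (Sum.elim f l)).det)) (by simp)
    rw [map_sub, map_sub, sub_eq_zero] at h1
    rw [h1]
    have h2 : φ (MvPolynomial.C (MvPolynomial.eval p (jac eqv (Sum.elim f l)).det))
        = MvPowerSeries.C (MvPolynomial.eval p (jac eqv (Sum.elim f l)).det) :=
      φ.commutes _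
    rw [h2, constantCoeff_C]
    exact hp.isUnit
  -- the derivations along `φ`
  let Δ' : Fin e → (MvPolynomial σ K →ₗ[K] MvPowerSeries (Fin e') K) := fun m =>
    φ.toLinearMap.comp (cof eqv (Sum.elim f l) m).toLinearMap
  have hΔ'app : ∀ m G, Δ' m G = φ (cof eqv (Sum.elim f l) m G) := fun _ _ => rfl
  have hΔ' : ∀ m, IsDer φ (Δ' m) := by
    intro m G H
    rw [hΔ'app, hΔ'app, hΔ'app, Derivation.leibniz, map_add, smul_eq_mul, smul_eq_mul, map_mul,
      map_mul]
  have hcomb : ∀ j : Fin e', ∃ b : Fin e → MvPowerSeries (Fin e') K,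
      ∀ G, MvPowerSeries.pderiv K j (φ G) = ∑ m, b m * φ (cof eqv (Sum.elim f l) m G) := by
    intro j
    let Δ : MvPolynomial σ K →ₗ[K] MvPowerSeries (Fin e') K :=
      (MvPowerSeries.pderiv K j).toLinearMap.comp φ.toLinearMap
    have hΔapp : ∀ G, Δ G = MvPowerSeries.pderiv K j (φ G) := fun _ => rfl
    refine exists_comb eqv (Sum.elim f l) φ hunit Δ' hΔ' ?_ ?_ Δ ?_ ?_
    · intro m i
      rw [hΔ'app, cof_g, if_neg (by simp), map_zero]
    · have : (Matrix.of fun m j => Δ' j (Sum.elim f l (Sum.inr m)))
          = (φ (jac eqv (Sum.elim f l)).det) • (1 : Matrix (Fin e) (Fin e) (MvPowerSeries (Fin e') K)) := by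
        ext1 m j
        rw [Matrix.of_apply, hΔ'app, cof_g, Matrix.smul_apply, Matrix.one_apply]
        by_cases h : m = j
        · subst h
          simp
        · simp [h]
      rw [this, Matrix.det_smul, Matrix.det_one, mul_one]
      exact hunit.pow _
    · intro G H
      rw [hΔapp, map_mul, Derivation.leibniz]
      rfl
    · intro i
      rw [hΔapp, Sum.elim_inl, hφf, map_zero]
  clear hΔ' hΔ'app
  induction n generalizing F with
  | zero =>
    rw [H930.mem_ordI']
    intro d hd
    exact absurd hd (Nat.not_lt_zero _)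
  | succ n ih =>
    rw [H930.mem_ordI']
    intro d hd
    by_cases hd0 : d = 0
    · subst hd0
      rw [coeff_zero_eq_constantCoeff_apply]
      exact hconst F (h [] (by simp))
    · obtain ⟨j, hj⟩ := Finsupp.ne_iff.1 hd0
      have hle : Finsupp.single j 1 ≤ d := by
        rw [Finsupp.single_le_iff]
        exact Nat.one_le_iff_ne_zero.2 hj
      obtain ⟨b, hb⟩ := hcomb j
      have h1 : MvPowerSeries.pderiv K j (φ F) ∈ (H930.ordI n : Ideal (MvPowerSeries (Fin e') K)) := by
        rw [hb F]
        refine Ideal.sum_mem _ fun m _ => Ideal.mul_mem_left _ _ (ih _ ?_)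
        intro w hw
        have := h (w ++ [m]) (by simp; omega)
        rwa [wd_append] at this
      have h2 := H930.mem_ordI'.1 h1 (d - Finsupp.single j 1) (by
        have h3 : d = (d - Finsupp.single j 1) + Finsupp.single j 1 := (tsub_add_cancel_of_le hle).symm
        have h4 := congrArg Finsupp.degree h3
        rw [map_add, Finsupp.degree_single] at h4
        omega)
      rw [MvPowerSeries.coeff_pderiv, tsub_add_cancel_of_le hle, mul_eq_zero] at h2
      refine h2.resolve_right ?_
      exact Nat.cast_add_one_ne_zero _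

/-- **Tangential words.** -/
theorem exists_tangent {c : ℕ} (p : σ → K) (f : Fin c → MvPolynomial σ K)
    (hf : ∀ i, MvPolynomial.eval p (f i) = 0)
    (hind : LinearIndependent K (fun i => H930.grad p (f i)))
    (d : Fin c → ℕ) (hd : ∀ i, (f i).totalDegree ≤ d i) :
    ∃ e : ℕ, e + c = Fintype.card σ ∧
      ∃ E : Fin e → Derivation K (MvPolynomial σ K) (MvPolynomial σ K),
        (∀ m i, E m (f i) = 0) ∧
        (∀ m F, (E m F).totalDegree ≤ F.totalDegree + ∑ i, (d i - 1)) ∧
        (∀ m j, (E m (MvPolynomial.X j)).totalDegree ≤ ∑ i, (d i - 1)) ∧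
        (∀ n F, F ∈ H930.J p f n ↔
          ∀ w : List (Fin e), w.length < n → MvPolynomial.eval p (wd E w F) = 0) := by
  classical
  obtain ⟨e, he, b, hb1, hb2⟩ := H930.exists_basis (fun i => H930.grad p (f i)) hind
  have hcard : Fintype.card (Fin c ⊕ Fin e) = Fintype.card σ := by
    rw [Fintype.card_sum, Fintype.card_fin, Fintype.card_fin]
    omega
  let eqv : Fin c ⊕ Fin e ≃ σ := Fintype.equivOfCardEq hcard
  let l : Fin e → MvPolynomial σ K := fun m =>
    ∑ j, MvPolynomial.C (b.coord (Sum.inl m) (Pi.single j 1)) * MvPolynomial.X j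
  have hl : ∀ m, (l m).totalDegree ≤ 1 := by
    intro m
    refine (MvPolynomial.totalDegree_finsetSum _ _).trans (Finset.sup_le fun j _ => ?_)
    refine (MvPolynomial.totalDegree_mul _ _).trans ?_
    rw [MvPolynomial.totalDegree_C, MvPolynomial.totalDegree_X]
  have hgl : ∀ m j, MvPolynomial.eval p (MvPolynomial.pderiv j (l m))
      = b.coord (Sum.inl m) (Pi.single j 1) := by
    intro m j
    rw [map_sum, map_sum, Finset.sum_eq_single j]
    · simp
    · intro j' _ hj'
      rw [MvPolynomial.pderiv_C_mul, MvPolynomial.pderiv_X_of_ne hj']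
      simp
    · intro h
      exact absurd (Finset.mem_univ _) h
  have hsum : ∀ m (v : σ → K), ∑ j, b.coord (Sum.inl m) (Pi.single j 1) * v j
      = b.coord (Sum.inl m) v := by
    intro m v
    conv_rhs => rw [pi_eq_sum_univ' v, map_sum]
    refine Finset.sum_congr rfl fun j _ => ?_
    rw [map_smul, smul_eq_mul, mul_comm]
  have hp : MvPolynomial.eval p (jac eqv (Sum.elim f l)).det ≠ 0 := by
    rw [RingHom.map_det]
    set M := (MvPolynomial.eval p).mapMatrix (jac eqv (Sum.elim f l)) with hM
    let B : Matrix (Fin c ⊕ Fin e) (Fin c ⊕ Fin e) K := Matrix.of fun b' β => b β.swap (eqv b')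
    have hMB : M * B = 1 := by
      ext a β
      rw [Matrix.mul_apply, Matrix.one_apply]
      have h1 : ∑ b', M a b' * B b' β
          = ∑ j, MvPolynomial.eval p (MvPolynomial.pderiv j (Sum.elim f l a)) * b β.swap j :=
        Equiv.sum_comp eqv
          (fun j => MvPolynomial.eval p (MvPolynomial.pderiv j (Sum.elim f l a)) * b β.swap j)
      rw [h1]
      rcases a with i | m
      · rcases β with i' | m'
        · have := hb2 i' i
          simp only [H930.grad] at this
          rw [Sum.elim_inl, Sum.swap_inl, this]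
          simp
        · have := hb1 m' i
          simp only [H930.grad] at this
          rw [Sum.elim_inl, Sum.swap_inr, this]
          simp
      · rw [Sum.elim_inr, Finset.sum_congr rfl fun j _ => by rw [hgl m j], hsum]
        rcases β with i' | m'
        · rw [Sum.swap_inl, Module.Basis.coord_apply, Module.Basis.repr_self]
          simp
        · rw [Sum.swap_inr, Module.Basis.coord_apply, Module.Basis.repr_self]
          simp [Finsupp.single_apply, eq_comm]
    intro h0
    have := congrArg Matrix.det hMB
    rw [Matrix.det_mul, h0, zero_mul, Matrix.det_one] at this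
    exact zero_ne_one this
  refine ⟨e, he, cof eqv (Sum.elim f l), ?_, ?_, ?_, ?_⟩
  · intro m i
    have := cof_g eqv (Sum.elim f l) m (Sum.inl i)
    rw [Sum.elim_inl] at this
    rw [this, if_neg (by simp)]
  · intro m F
    exact totalDegree_cof_le eqv (Sum.elim f l) d hd hl m F
  · intro m j
    have h1 : cof eqv (Sum.elim f l) m (MvPolynomial.X j)
        = (jac eqv (Sum.elim f l)).adjugate (eqv.symm j) (Sum.inr m) := by
      rw [cof_apply, Finset.sum_eq_single (eqv.symm j)]
      · rw [Equiv.apply_symm_apply, MvPolynomial.pderiv_X_self, mul_one]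
      · intro b' _ hb'
        rw [MvPolynomial.pderiv_X_of_ne, mul_zero]
        intro h'
        apply hb'
        rw [h', Equiv.symm_apply_apply]
      · intro h
        exact absurd (Finset.mem_univ _) h
    rw [h1]
    exact totalDegree_adjugate_le eqv (Sum.elim f l) d hd hl _ m
  · intro n F
    constructor
    · intro hF w hw
      have h1 : wd (cof eqv (Sum.elim f l)) w F ∈ H930.J p f (n - w.length) := by
        refine wd_mem_J _ w (n - w.length) ?_ ?_
        · intro m i
          have := cof_g eqv (Sum.elim f l) m (Sum.inl i)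
          rw [Sum.elim_inl] at this
          rw [this, if_neg (by simp)]
          exact Ideal.zero_mem _
        · rwa [Nat.sub_add_cancel hw.le]
      have h2 := H930.J_anti p f (show 1 ≤ n - w.length by omega) h1
      rw [H930.J_one p f hf] at h2
      exact h2
    · exact mem_J_of_words hf hind eqv l hp n F

end Words

end Vale.Agent.P054.T2.H275
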